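import Vale.Agent.P354.Geom

open Set

namespace Vale.Agent.P354

/-- the base space of the exotic vertical lines -/
abbrev P3 : Type := ℝ × ℝ × ℝ

/-- the region swept by the vertical lines `t ↦ (t, x)`, `t0 < t < f x`, `x ∈ ball 0 r` -/
def DD (t0 r : ℝ) (f : P3 → ℝ) : Set P4 :=
  {z | z.2 ∈ Metric.ball (0 : P3) r ∧ t0 < z.1 ∧ z.1 < f z.2}

end Vale.Agent.P354
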