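import Mathlib

set_option maxSynthPendingDepth 3

namespace Vale.Agent.P354

/-- Four real coordinates. Standard side: `(th1, v, u, th2)`. -/
abbrev P4 : Type := ℝ × ℝ × ℝ × ℝ

/-- coefficient functions of a double null metric
`-om (dv du + du dv) + gAB (dthA - sA dv)(dthB - sB dv)`. -/
structure Coef where
  om : P4 → ℝ
  s1 : P4 → ℝ
  s2 : P4 → ℝ
  g11 : P4 → ℝ
  g12 : P4 → ℝ
  g22 : P4 → ℝ

namespace Coef

variable (K : Coef)

def h1 (x a : P4) : ℝ := a.1 - K.s1 x * a.2.1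
def h2 (x a : P4) : ℝ := a.2.2.2 - K.s2 x * a.2.1

/-- the metric -/
def gF (x a b : P4) : ℝ :=
  - K.om x * (a.2.1 * b.2.2.1 + a.2.2.1 * b.2.1)
    + K.g11 x * (K.h1 x a * K.h1 x b)
    + K.g12 x * (K.h1 x a * K.h2 x b + K.h2 x a * K.h1 x b)
    + K.g22 x * (K.h2 x a * K.h2 x b)

/-- derivative of the metric coefficients in direction `h` -/
noncomputable def dgF (x h a b : P4) : ℝ :=
  - (fderiv ℝ K.om x h) * (a.2.1 * b.2.2.1 + a.2.2.1 * b.2.1)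
    + (fderiv ℝ K.g11 x h) * (K.h1 x a * K.h1 x b)
    + (fderiv ℝ K.g12 x h) * (K.h1 x a * K.h2 x b + K.h2 x a * K.h1 x b)
    + (fderiv ℝ K.g22 x h) * (K.h2 x a * K.h2 x b)
    - K.g11 x * ((fderiv ℝ K.s1 x h) * a.2.1 * K.h1 x b + K.h1 x a * ((fderiv ℝ K.s1 x h) * b.2.1))
    - K.g12 x * ((fderiv ℝ K.s1 x h) * a.2.1 * K.h2 x b + K.h1 x a * ((fderiv ℝ K.s2 x h) * b.2.1)
        + (fderiv ℝ K.s2 x h) * a.2.1 * K.h1 x b + K.h2 x a * ((fderiv ℝ K.s1 x h) * b.2.1))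
    - K.g22 x * ((fderiv ℝ K.s2 x h) * a.2.1 * K.h2 x b + K.h2 x a * ((fderiv ℝ K.s2 x h) * b.2.1))

lemma gF_symm (x a b : P4) : K.gF x a b = K.gF x b a := by
  unfold gF; ring

lemma gF_add_left (x a b c : P4) : K.gF x (a + b) c = K.gF x a c + K.gF x b c := by
  simp only [gF, h1, h2, Prod.fst_add, Prod.snd_add]; ring

lemma gF_add_right (x a b c : P4) : K.gF x a (b + c) = K.gF x a b + K.gF x a c := by
  simp only [gF, h1, h2, Prod.fst_add, Prod.snd_add]; ring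

end Coef

/-- Differentiability of all coefficients at a point. -/
structure Coef.DiffAt (K : Coef) (x : P4) : Prop where
  om : DifferentiableAt ℝ K.om x
  s1 : DifferentiableAt ℝ K.s1 x
  s2 : DifferentiableAt ℝ K.s2 x
  g11 : DifferentiableAt ℝ K.g11 x
  g12 : DifferentiableAt ℝ K.g12 x
  g22 : DifferentiableAt ℝ K.g22 x

/-- derivative of `gF (x τ) (a τ) (b τ)` along a curve -/
lemma Coef.hasDerivAt_gF (K : Coef) {X A B : ℝ → P4} {X' A' B' : P4} {τ : ℝ}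
    (hK : K.DiffAt (X τ)) (hX : HasDerivAt X X' τ) (hA : HasDerivAt A A' τ)
    (hB : HasDerivAt B B' τ) :
    HasDerivAt (fun τ => K.gF (X τ) (A τ) (B τ))
      (K.dgF (X τ) X' (A τ) (B τ) + K.gF (X τ) A' (B τ) + K.gF (X τ) (A τ) B') τ := by
  have hom : HasDerivAt (fun τ => K.om (X τ)) (fderiv ℝ K.om (X τ) X') τ :=
    hK.om.hasFDerivAt.comp_hasDerivAt τ hX
  have hs1 : HasDerivAt (fun τ => K.s1 (X τ)) (fderiv ℝ K.s1 (X τ) X') τ :=
    hK.s1.hasFDerivAt.comp_hasDerivAt τ hX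
  have hs2 : HasDerivAt (fun τ => K.s2 (X τ)) (fderiv ℝ K.s2 (X τ) X') τ :=
    hK.s2.hasFDerivAt.comp_hasDerivAt τ hX
  have hg11 : HasDerivAt (fun τ => K.g11 (X τ)) (fderiv ℝ K.g11 (X τ) X') τ :=
    hK.g11.hasFDerivAt.comp_hasDerivAt τ hX
  have hg12 : HasDerivAt (fun τ => K.g12 (X τ)) (fderiv ℝ K.g12 (X τ) X') τ :=
    hK.g12.hasFDerivAt.comp_hasDerivAt τ hX
  have hg22 : HasDerivAt (fun τ => K.g22 (X τ)) (fderiv ℝ K.g22 (X τ) X') τ :=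
    hK.g22.hasFDerivAt.comp_hasDerivAt τ hX
  have hA1 : HasDerivAt (fun τ => (A τ).1) A'.1 τ := hA.fst
  have hA2 : HasDerivAt (fun τ => (A τ).2.1) A'.2.1 τ := hA.snd.fst
  have hA3 : HasDerivAt (fun τ => (A τ).2.2.1) A'.2.2.1 τ := hA.snd.snd.fst
  have hA4 : HasDerivAt (fun τ => (A τ).2.2.2) A'.2.2.2 τ := hA.snd.snd.snd
  have hB1 : HasDerivAt (fun τ => (B τ).1) B'.1 τ := hB.fst
  have hB2 : HasDerivAt (fun τ => (B τ).2.1) B'.2.1 τ := hB.snd.fst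
  have hB3 : HasDerivAt (fun τ => (B τ).2.2.1) B'.2.2.1 τ := hB.snd.snd.fst
  have hB4 : HasDerivAt (fun τ => (B τ).2.2.2) B'.2.2.2 τ := hB.snd.snd.snd
  have hh1A := hA1.sub (hs1.mul hA2)
  have hh2A := hA4.sub (hs2.mul hA2)
  have hh1B := hB1.sub (hs1.mul hB2)
  have hh2B := hB4.sub (hs2.mul hB2)
  have := (((hom.neg.mul ((hA2.mul hB3).add (hA3.mul hB2))).add
    (hg11.mul (hh1A.mul hh1B))).add
    (hg12.mul ((hh1A.mul hh2B).add (hh2A.mul hh1B)))).add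
    (hg22.mul (hh2A.mul hh2B))
  refine this.congr_deriv ?_
  simp only [Coef.gF, Coef.dgF, Coef.h1, Coef.h2, Pi.mul_apply, Pi.sub_apply, Pi.add_apply, Pi.neg_apply]
  ring

end Vale.Agent.P354
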