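import Mathlib
import Vale.Agent.P354.Geom

set_option maxSynthPendingDepth 3

namespace Vale.Agent.P354

/-- Minkowski form on P4 (first coordinate is time). -/
def mink (a b : P4) : ℝ := -(a.1 * b.1) + a.2.1 * b.2.1 + a.2.2.1 * b.2.2.1 + a.2.2.2 * b.2.2.2

/-- A Lorentz basis of the form B on V. -/
def LBasis {V : Type*} [AddCommGroup V] [Module ℝ V] (B : V → V → ℝ) (b : Fin 4 → V) : Prop :=
  ∀ i j, B (b i) (b j) = if i = j then (if i = 0 then -1 else 1) else 0

/-- Bilinearity, unbundled. -/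
structure Bilin {V : Type*} [AddCommGroup V] [Module ℝ V] (B : V → V → ℝ) : Prop where
  add_left : ∀ a b c, B (a + b) c = B a c + B b c
  add_right : ∀ a b c, B a (b + c) = B a b + B a c
  smul_left : ∀ (t : ℝ) a b, B (t • a) b = t * B a b
  smul_right : ∀ (t : ℝ) a b, B a (t • b) = t * B a b

section

variable {V : Type*} [AddCommGroup V] [Module ℝ V] {B : V → V → ℝ}

/-- combination of four vectors -/
def comb (b : Fin 4 → V) (c : Fin 4 → ℝ) : V := c 0 • b 0 + c 1 • b 1 + c 2 • b 2 + c 3 • b 3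

lemma B_comb (hB : Bilin B) {b : Fin 4 → V} (hb : LBasis B b) (c d : Fin 4 → ℝ) :
    B (comb b c) (comb b d) = -(c 0 * d 0) + c 1 * d 1 + c 2 * d 2 + c 3 * d 3 := by
  have h00 := hb 0 0; have h01 := hb 0 1; have h02 := hb 0 2; have h03 := hb 0 3
  have h10 := hb 1 0; have h11 := hb 1 1; have h12 := hb 1 2; have h13 := hb 1 3
  have h20 := hb 2 0; have h21 := hb 2 1; have h22 := hb 2 2; have h23 := hb 2 3
  have h30 := hb 3 0; have h31 := hb 3 1; have h32 := hb 3 2; have h33 := hb 3 3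
  simp only [Fin.isValue, ↓reduceIte, zero_ne_one, Fin.reduceEq, one_ne_zero] at h00 h01 h02 h03 h10 h11 h12 h13 h20 h21 h22 h23 h30 h31 h32 h33
  simp only [comb, hB.add_left, hB.add_right, hB.smul_left, hB.smul_right, h00, h01, h02, h03,
    h10, h11, h12, h13, h20, h21, h22, h23, h30, h31, h32, h33]
  ring

lemma B_comb_basis (hB : Bilin B) {b : Fin 4 → V} (hb : LBasis B b) (c : Fin 4 → ℝ) (j : Fin 4) :
    B (comb b c) (b j) = if j = 0 then - c 0 else c j := by
  have h := B_comb hB hb c (fun i => if i = j then 1 else 0)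
  have h2 : comb b (fun i => if i = j then (1:ℝ) else 0) = b j := by
    fin_cases j <;> simp only [comb, Fin.isValue, Fin.zero_eta, ↓reduceIte, one_smul, one_ne_zero, zero_smul, add_zero, Fin.reduceEq, Fin.mk_one, zero_ne_one, zero_add, Fin.reduceFinMk]
  rw [h2] at h
  rw [h]
  fin_cases j <;> simp only [Fin.isValue, Fin.zero_eta, ↓reduceIte, mul_one, one_ne_zero, mul_zero, add_zero, Fin.reduceEq, Fin.mk_one, zero_ne_one, neg_zero, zero_add, Fin.reduceFinMk]

lemma LBasis.span (hB : Bilin B) {b : Fin 4 → V} (hb : LBasis B b)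
    (hfin : Module.finrank ℝ V = 4) (v : V) : ∃ c : Fin 4 → ℝ, v = comb b c := by
  have hli : LinearIndependent ℝ b := by
    rw [Fintype.linearIndependent_iff]
    intro g hg
    have h0 : comb b g = 0 := by
      rw [← hg]; simp only [comb, Fin.isValue, Fin.sum_univ_four]
    have hz : ∀ w, B 0 w = 0 := by
      intro w
      have := hB.smul_left 0 0 w
      simpa using this
    intro i
    have := B_comb_basis hB hb g i
    rw [h0, hz] at this
    split_ifs at this with hi
    · subst hi; linarith only [this]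
    · exact this.symm
  let bb := basisOfLinearIndependentOfCardEqFinrank hli (by simp only [Fintype.card_fin, hfin])
  refine ⟨fun i => bb.repr v i, ?_⟩
  have h := bb.sum_repr v
  simp only [bb, coe_basisOfLinearIndependentOfCardEqFinrank] at h
  conv_lhs => rw [← h]
  simp only [basisOfLinearIndependentOfCardEqFinrank_repr_apply, Fin.sum_univ_four, Fin.isValue, comb, bb]

lemma LBasis.symm (hB : Bilin B) {b : Fin 4 → V} (hb : LBasis B b)
    (hfin : Module.finrank ℝ V = 4) (v w : V) : B v w = B w v := by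
  obtain ⟨c, rfl⟩ := hb.span hB hfin v
  obtain ⟨d, rfl⟩ := hb.span hB hfin w
  rw [B_comb hB hb, B_comb hB hb]
  ring

/-- adapted Lorentz frame: first vector a positive multiple of a given timelike vector -/
lemma exists_adapted (hB : Bilin B) {b : Fin 4 → V} (hb : LBasis B b)
    (hspan : ∀ v : V, ∃ c : Fin 4 → ℝ, v = comb b c) {w : V} (hw : B w w < 0) :
    ∃ b' : Fin 4 → V, LBasis B b' ∧ ∃ l : ℝ, 0 < l ∧ b' 0 = l • w := by
  -- normalize
  set l : ℝ := 1 / Real.sqrt (-(B w w)) with hl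
  have hpos : 0 < -(B w w) := by linarith only [hw]
  have hl0 : 0 < l := by positivity
  set w1 : V := l • w with hw1
  have hw1n : B w1 w1 = -1 := by
    rw [hw1, hB.smul_left, hB.smul_right, hl]
    have := Real.mul_self_sqrt hpos.le
    have h2 : Real.sqrt (-(B w w)) ≠ 0 := (Real.sqrt_pos.2 hpos).ne'
    field_simp
    linarith only [this]
  obtain ⟨c, hc⟩ := hspan w1
  -- choose the sign
  obtain ⟨b1, c1, hb1, hc1, hc1pos⟩ : ∃ (b1 : Fin 4 → V) (c1 : Fin 4 → ℝ), LBasis B b1 ∧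
      w1 = comb b1 c1 ∧ 0 ≤ c1 0 := by
    rcases le_total 0 (c 0) with h0 | h0
    · exact ⟨b, c, hb, hc, h0⟩
    · refine ⟨fun i => (-1 : ℝ) • b i, fun i => -c i, ?_, ?_, by simpa only [Fin.isValue, Left.nonneg_neg_iff] using h0⟩
      · intro i j
        simp only [hB.smul_left, hB.smul_right]
        rw [hb i j]; ring
      · rw [hc]; simp only [comb, smul_smul]; congr 1 <;> ring_nf
  have hn : -(c1 0 * c1 0) + c1 1 * c1 1 + c1 2 * c1 2 + c1 3 * c1 3 = -1 := by
    rw [← B_comb hB hb1 c1 c1, ← hc1, hw1n]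
  have hden : 0 < 1 + c1 0 := by linarith only [hc1pos]
  obtain ⟨m1, hm1⟩ : ∃ m, c1 1 = m * (1 + c1 0) := ⟨c1 1 / (1 + c1 0), by field_simp⟩
  obtain ⟨m2, hm2⟩ : ∃ m, c1 2 = m * (1 + c1 0) := ⟨c1 2 / (1 + c1 0), by field_simp⟩
  obtain ⟨m3, hm3⟩ : ∃ m, c1 3 = m * (1 + c1 0) := ⟨c1 3 / (1 + c1 0), by field_simp⟩
  obtain ⟨a, ha⟩ : ∃ a, c1 0 = a := ⟨_, rfl⟩
  rw [ha] at hm1 hm2 hm3 hden hn
  rw [hm1, hm2, hm3] at hn
  have hk : (1 + a) * (m1 * m1 + m2 * m2 + m3 * m3) = a - 1 := by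
    have : (1 + a) * ((1 + a) * (m1 * m1 + m2 * m2 + m3 * m3) - (a - 1)) = 0 := by
      linear_combination hn
    rcases mul_eq_zero.1 this with h | h
    · exact absurd h hden.ne'
    · linarith only [h]
  -- coefficients of the new frame
  let d : Fin 4 → Fin 4 → ℝ :=
    ![![a, m1 * (1 + a), m2 * (1 + a), m3 * (1 + a)],
      ![m1 * (1 + a), 1 + m1 * m1 * (1 + a), m1 * m2 * (1 + a), m1 * m3 * (1 + a)],
      ![m2 * (1 + a), m2 * m1 * (1 + a), 1 + m2 * m2 * (1 + a), m2 * m3 * (1 + a)],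
      ![m3 * (1 + a), m3 * m1 * (1 + a), m3 * m2 * (1 + a), 1 + m3 * m3 * (1 + a)]]
  refine ⟨fun i => comb b1 (d i), ?_, l, hl0, ?_⟩
  · intro i j
    rw [B_comb hB hb1]
    fin_cases i <;> fin_cases j <;> simp only [Fin.zero_eta, Fin.isValue, Matrix.cons_val', Matrix.cons_val_zero, Matrix.cons_val_fin_one, Matrix.cons_val_one, Matrix.cons_val, ↓reduceIte, d, Fin.mk_one, zero_ne_one, Fin.reduceFinMk, Fin.reduceEq, one_ne_zero]
    · linear_combination (1 + a) * hk
    · linear_combination m1 * (1 + a) * hk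
    · linear_combination m2 * (1 + a) * hk
    · linear_combination m3 * (1 + a) * hk
    · linear_combination m1 * (1 + a) * hk
    · linear_combination m1 * m1 * (1 + a) * hk
    · linear_combination m1 * m2 * (1 + a) * hk
    · linear_combination m1 * m3 * (1 + a) * hk
    · linear_combination m2 * (1 + a) * hk
    · linear_combination m2 * m1 * (1 + a) * hk
    · linear_combination m2 * m2 * (1 + a) * hk
    · linear_combination m2 * m3 * (1 + a) * hk
    · linear_combination m3 * (1 + a) * hk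
    · linear_combination m3 * m1 * (1 + a) * hk
    · linear_combination m3 * m2 * (1 + a) * hk
    · linear_combination m3 * m3 * (1 + a) * hk
  · rw [← hw1, hc1]
    simp only [comb, Fin.isValue, Matrix.cons_val', Matrix.cons_val_zero, Matrix.cons_val_fin_one, Matrix.cons_val_one, Matrix.cons_val, ha, hm1, hm2, hm3, d]

/-- transitivity of the relation of lying in the same cone -/
lemma same_cone (hB : Bilin B) {b : Fin 4 → V} (hb : LBasis B b)
    (hfin : Module.finrank ℝ V = 4) {a t c : V} (ht : B t t < 0) (ha : B a a < 0)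
    (hat : B a t < 0) (hc : B c c ≤ 0) (hct : B c t < 0) : B a c < 0 := by
  obtain ⟨b', hb', l, hl, hb0⟩ := exists_adapted hB hb (hb.span hB hfin) ht
  obtain ⟨x, rfl⟩ := hb'.span hB hfin a
  obtain ⟨y, rfl⟩ := hb'.span hB hfin c
  have h1 := B_comb_basis hB hb' x 0
  have h2 := B_comb_basis hB hb' y 0
  rw [hb0, hB.smul_right] at h1 h2
  simp only [Fin.isValue, ↓reduceIte] at h1 h2
  have hx : 0 < x 0 := by linarith only [h1, mul_neg_of_pos_of_neg hl hat]
  have hy : 0 < y 0 := by linarith only [h2, mul_neg_of_pos_of_neg hl hct]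
  rw [B_comb hB hb'] at ha hc ⊢
  -- Cauchy-Schwarz
  have cs : (x 1 * y 1 + x 2 * y 2 + x 3 * y 3) ^ 2 ≤
      (x 1 * x 1 + x 2 * x 2 + x 3 * x 3) * (y 1 * y 1 + y 2 * y 2 + y 3 * y 3) := by
    linarith [sq_nonneg (x 1 * y 2 - x 2 * y 1), sq_nonneg (x 1 * y 3 - x 3 * y 1),
      sq_nonneg (x 2 * y 3 - x 3 * y 2)]
  have h3 : (x 1 * y 1 + x 2 * y 2 + x 3 * y 3) ^ 2 < (x 0 * y 0) ^ 2 := by
    have e1 : x 1 * x 1 + x 2 * x 2 + x 3 * x 3 < x 0 * x 0 := by linarith only [ha]
    have e2 : y 1 * y 1 + y 2 * y 2 + y 3 * y 3 ≤ y 0 * y 0 := by linarith only [hc]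
    have e3 : 0 < y 0 * y 0 := by positivity
    have e4 : 0 ≤ x 1 * x 1 + x 2 * x 2 + x 3 * x 3 := by
      linarith only [mul_self_nonneg (x 1), mul_self_nonneg (x 2), mul_self_nonneg (x 3)]
    calc _ ≤ _ := cs
      _ ≤ (x 1 * x 1 + x 2 * x 2 + x 3 * x 3) * (y 0 * y 0) := by gcongr
      _ < (x 0 * x 0) * (y 0 * y 0) := by gcongr
      _ = _ := by ring
  have h4 := abs_lt_of_sq_lt_sq h3 (by positivity)
  have h5 := (abs_lt.1 h4).2
  linarith only [h5]

end

end Vale.Agent.P354
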