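import Mathlib
import Vale.Agent.P354.LorentzAlg

set_option linter.unusedSectionVars false
set_option maxSynthPendingDepth 3

open Set

namespace Vale.Agent.P354

/-- the standard basis of P4, with indices in Fin 4 -/
noncomputable def bP (i : Fin 4) : P4 := ![(1, 0, 0, 0), (0, 1, 0, 0), (0, 0, 1, 0), (0, 0, 0, 1)] i

/-- Gram matrix -/
noncomputable def Gram (B : P4 →L[ℝ] P4 →L[ℝ] ℝ) : Matrix (Fin 4) (Fin 4) ℝ :=
  Matrix.of fun i j => B (bP i) (bP j)

lemma Gram_continuous : Continuous (fun B : P4 →L[ℝ] P4 →L[ℝ] ℝ => (Gram B).det) := by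
  refine Continuous.matrix_det ?_
  refine continuous_matrix fun i j => ?_
  exact ((ContinuousLinearMap.apply ℝ ℝ (bP j)).continuous).comp
    ((ContinuousLinearMap.apply ℝ (P4 →L[ℝ] ℝ) (bP i)).continuous)

lemma Gram_mink {B : P4 →L[ℝ] P4 →L[ℝ] ℝ} (h : ∀ a b, B a b = mink a b) : (Gram B).det = -1 := by
  have : Gram B = Matrix.diagonal ![-1, 1, 1, 1] := by
    ext i j
    simp only [Gram, Matrix.of_apply, h]
    fin_cases i <;> fin_cases j <;> simp only [mink, bP, Nat.succ_eq_add_one, Nat.reduceAdd, Fin.zero_eta, Fin.isValue, Matrix.cons_val_zero, mul_one, mul_zero, add_zero, Matrix.diagonal, Matrix.of_apply, ↓reduceIte, Fin.mk_one, Matrix.cons_val_one, neg_zero, zero_ne_one, Fin.reduceFinMk, Matrix.cons_val, Fin.reduceEq, one_ne_zero, zero_add]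
  rw [this, Matrix.det_diagonal, Fin.prod_univ_four]
  simp

end Vale.Agent.P354
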