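import Vale.Agent.P354.SLine
import Vale.Agent.P354.CoreDD

set_option maxSynthPendingDepth 3

open Set Filter Topology MeasureTheory

namespace Vale.Agent.P354

/-- times reached by the vertical line over `x` inside `V` -/
def TT (V : Set P4) (t0 : ℝ) (x : P3) : Set ℝ := {t | t0 ≤ t ∧ ∀ t' ∈ Icc t0 t, ((t', x) : P4) ∈ V}

/-- exit time -/
noncomputable def exitT (V : Set P4) (t0 : ℝ) (x : P3) : ℝ := sSup (TT V t0 x)

lemma TT_facts {V : Set P4} (hV : IsOpen V) {x : P3} {t0 M : ℝ} (h0 : ((t0, x) : P4) ∈ V)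
    (hM : ∀ t ∈ TT V t0 x, t ≤ M) :
    t0 < exitT V t0 x ∧ (∀ t ∈ Ico t0 (exitT V t0 x), t ∈ TT V t0 x) ∧
      ((exitT V t0 x, x) : P4) ∉ V ∧ (∀ t ∈ TT V t0 x, t < exitT V t0 x) ∧
      exitT V t0 x ≤ M := by
  have hne : t0 ∈ TT V t0 x := by
    refine ⟨le_rfl, fun t' ht' => ?_⟩
    have : t' = t0 := le_antisymm ht'.2 ht'.1
    rw [this]; exact h0
  have hbdd : BddAbove (TT V t0 x) := ⟨M, hM⟩
  have hico : ∀ t ∈ Ico t0 (exitT V t0 x), t ∈ TT V t0 x := by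
    intro t ht
    obtain ⟨t1, ht1, hlt⟩ := exists_lt_of_lt_csSup ⟨t0, hne⟩ ht.2
    exact ⟨ht.1, fun t' ht' => ht1.2 t' ⟨ht'.1, ht'.2.trans hlt.le⟩⟩
  have hge : t0 ≤ exitT V t0 x := le_csSup hbdd hne
  have hnot : ((exitT V t0 x, x) : P4) ∉ V := by
    intro hin
    have hc : Continuous (fun t : ℝ => ((t, x) : P4)) := by fun_prop
    have h1 : ∀ᶠ t in 𝓝 (exitT V t0 x), ((t, x) : P4) ∈ V :=
      hc.continuousAt.eventually (hV.mem_nhds hin)
    obtain ⟨ε, hε, hball⟩ := Metric.eventually_nhds_iff.1 h1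
    have h2 : exitT V t0 x + ε / 2 ∈ TT V t0 x := by
      refine ⟨by linarith only [hge, hε], fun t' ht' => ?_⟩
      rcases lt_or_ge t' (exitT V t0 x) with h | h
      · exact (hico t' ⟨ht'.1, h⟩).2 t' ⟨ht'.1, le_rfl⟩
      · apply hball
        rw [Real.dist_eq, abs_of_nonneg (by linarith)]
        linarith only [hε, ht'.2]
    have h3 : exitT V t0 x + ε / 2 ≤ exitT V t0 x := le_csSup hbdd h2
    linarith
  refine ⟨lt_of_le_of_ne hge ?_, hico, hnot, ?_, csSup_le ⟨t0, hne⟩ hM⟩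
  · intro h
    rw [← h] at hnot
    exact hnot h0
  · intro t ht
    refine lt_of_le_of_ne (le_csSup hbdd ht) ?_
    intro h
    have := ht.2 t ⟨ht.1, le_rfl⟩
    rw [h] at this
    exact hnot this

namespace SHyp

variable {K : Coef} {G : P4 → P4 →L[ℝ] P4 →L[ℝ] ℝ} {Psi Phi : P4 → P4} {V : Set P4}
  {R0 ρ C : ℝ} {p0 : P4} {γ : ℝ → P4} {s0 η1 η : ℝ}

/-- The structure lemma, with the bound of the image. -/
theorem main' (H : SHyp K G Psi Phi V R0 ρ C p0) (hc : SCurve Psi V p0 γ s0 η1)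
    (hη1 : 0 < η1) (hη : 5 * C * (5 * C * η1) < ρ) (hη2 : 280 * C ^ 6 * (5 * C * η1) ≤ 1) :
    ∃ (t0 r : ℝ) (f : P3 → ℝ), 0 < r ∧ (∀ x ∈ Metric.ball (0 : P3) r, t0 < f x) ∧
      (∀ x ∈ Metric.ball (0 : P3) r, ∀ t ∈ Ico t0 (f x), ((t, x) : P4) ∈ V) ∧
      IsOpen (DD t0 r f) ∧
      (∀ r' < r, ∀ v2 < 0, IsCompact {z : P4 | ‖z.2‖ ≤ r' ∧ t0 ≤ z.1 ∧ z.1 < f z.2 ∧
        (Psi z).2.1 ≤ v2}) ∧
      (∀ x ∈ Metric.ball (0 : P3) r, ∀ v2 < 0, ∃ t ∈ Ico t0 (f x), v2 < (Psi (t, x)).2.1) ∧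
      (∀ z ∈ DD t0 r f, ‖z‖ ≤ R0 / 2) ∧
      (∀ x ∈ Metric.ball (0 : P3) r, ∀ t ∈ Ico t0 (f x), ‖Psi (t, x) - p0‖ ≤ 5 * C * η1) := by
  have hC := H.one_le
  have hC0 : 0 < C := by linarith
  have hη' : 5 * C * η1 < ρ := by
    have : 5 * C * η1 ≤ 5 * C * (5 * C * η1) := by
      have : η1 ≤ 5 * C * η1 := le_mul_of_one_le_left (by linarith) (by linarith)
      gcongr
    linarith
  have hs0 : s0 ∈ Ico s0 1 := ⟨le_rfl, hc.s0_lt⟩
  obtain ⟨r, hr, hr1, hr2, hexit⟩ := H.no_u_exit hc hη1 hη hη2 hs0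
  set t0 := (γ s0).1 / 4 with ht0
  have hneg := hc.neg s0 hs0
  have ht0R : -t0 < R0 / 4 := by
    have h1 := H.V_sub (hc.mem s0 hs0)
    rw [mem_ball_zero_iff] at h1
    have h2 := (norm_fst_le (γ s0)).trans_lt h1
    rw [Real.norm_eq_abs, abs_of_neg hneg] at h2
    rw [ht0]; linarith only [h2]
  have ht0neg : t0 < 0 := by rw [ht0]; linarith only [hr, hr1]
  have hslice : ∀ x ∈ Metric.ball (0 : P3) r, ((t0, x) : P4) ∈ V := by
    intro x hx
    rw [mem_ball_zero_iff] at hx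
    obtain ⟨h1, h2⟩ := slice_cone hc hs0 (hx.trans_le hr1)
    exact (H.past hc hη' hs0 h1 h2).1.right
  -- points on lines
  have hline : ∀ x ∈ Metric.ball (0 : P3) r, ∀ t ∈ TT V t0 x,
      t < 4 * ‖x‖ ∧ ‖Psi (t, x) - p0‖ ≤ 5 * C * η1 := by
    intro x hx t ht
    rw [mem_ball_zero_iff] at hx
    have h1 := hexit x hx t ht.1 ht.2
    have h2 := H.line_bound hc hη hs0 (hx.trans_le hr1) ht.1 ht.2 h1.le
    exact ⟨h2.1, h2.2.1⟩
  have hM : ∀ x ∈ Metric.ball (0 : P3) r, ∀ t ∈ TT V t0 x, t ≤ 4 * r := by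
    intro x hx t ht
    have h1 := (hline x hx t ht).1
    rw [mem_ball_zero_iff] at hx
    linarith only [hx, h1]
  have hfacts := fun x hx => TT_facts H.iso.isOpen (hslice x hx) (hM x hx)
  refine ⟨t0, r, exitT V t0, hr, fun x hx => (hfacts x hx).1, ?_, ?_, ?_, ?_, ?_,
    fun x hx t ht => (hline x hx t ((hfacts x hx).2.1 t ht)).2⟩
  · intro x hx t ht
    exact ((hfacts x hx).2.1 t ht).2 t ⟨ht.1, le_rfl⟩
  · -- openness
    rw [isOpen_iff_mem_nhds]
    rintro ⟨t, x⟩ ⟨hx, ht, htf⟩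
    simp only at hx ht htf
    have hT := (hfacts x hx).2.1 t ⟨ht.le, htf⟩
    have hin : InV V (t0, x) (t, x) := vline_inV ht.le hT.2
    have ev1 : ∀ᶠ z : P4 in 𝓝 (t, x), z.2 ∈ Metric.ball (0 : P3) r :=
      continuous_snd.continuousAt.eventually (Metric.isOpen_ball.mem_nhds hx)
    have ev2 : ∀ᶠ z : P4 in 𝓝 (t, x), t0 < z.1 :=
      continuous_fst.continuousAt.eventually (lt_mem_nhds ht)
    have ev3 : ∀ᶠ z : P4 in 𝓝 (t, x), ∀ τ ∈ Icc (0:ℝ) 1,
        ((t0 + τ * (z.1 - t0), z.2) : P4) ∈ V := by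
      refine isCompact_Icc.eventually_forall_of_forall_eventually
        (P := fun (z : P4) (τ : ℝ) => ((t0 + τ * (z.1 - t0), z.2) : P4) ∈ V) ?_
      intro τ hτ
      have hcc : Continuous (fun p : P4 × ℝ => ((t0 + p.2 * (p.1.1 - t0), p.1.2) : P4)) := by
        fun_prop
      refine hcc.continuousAt.eventually (H.iso.isOpen.mem_nhds ?_)
      have h1 : 0 ≤ τ * (t - t0) := mul_nonneg hτ.1 (by linarith only [ht])
      have h2 : τ * (t - t0) ≤ 1 * (t - t0) := mul_le_mul_of_nonneg_right hτ.2 (by linarith only [ht])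
      exact hT.2 _ ⟨by simp only; linarith only [h1], by simp only; linarith only [h2]⟩
    filter_upwards [ev1, ev2, ev3] with z h1 h2 h3
    refine ⟨h1, h2, ?_⟩
    refine (hfacts z.2 h1).2.2.2.1 z.1 ⟨h2.le, fun t' ht' => ?_⟩
    have hpos : 0 < z.1 - t0 := by linarith only [h2]
    have h4 := h3 ((t' - t0) / (z.1 - t0)) ⟨div_nonneg (by linarith only [ht'.1]) hpos.le, by
      rw [div_le_one hpos]; linarith only [ht'.2]⟩
    rw [div_mul_cancel₀ _ hpos.ne'] at h4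
    have : t0 + (t' - t0) = t' := by ring
    rwa [this] at h4
  · -- compactness
    intro r' hr' v2 hv2
    obtain ⟨F, hF, hVF⟩ := H.cl _ (KB_compact p0 (5 * C * η1) v2) (KB_sub hη' hv2)
    have hset : {z : P4 | ‖z.2‖ ≤ r' ∧ t0 ≤ z.1 ∧ z.1 < exitT V t0 z.2 ∧ (Psi z).2.1 ≤ v2} =
        ({z : P4 | ‖z.2‖ ≤ r'} ∩ {z : P4 | t0 ≤ z.1} ∩ {z : P4 | z.1 ≤ 4 * r}) ∩
          ⋂ τ ∈ Icc (0:ℝ) 1, (fun z : P4 => ((t0 + τ * (z.1 - t0), z.2) : P4)) ⁻¹' F := by
      ext z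
      simp only [mem_inter_iff, mem_ofPred_eq, mem_iInter, mem_preimage]
      constructor
      · rintro ⟨h1, h2, h3, h4⟩
        have hzb : z.2 ∈ Metric.ball (0 : P3) r := by
          rw [mem_ball_zero_iff]; exact h1.trans_lt hr'
        have hT := (hfacts z.2 hzb).2.1 z.1 ⟨h2, h3⟩
        refine ⟨⟨⟨h1, h2⟩, hM z.2 hzb z.1 hT⟩, fun τ hτ => ?_⟩
        have e1 : 0 ≤ τ * (z.1 - t0) := mul_nonneg hτ.1 (by linarith only [h2])
        have e2 : τ * (z.1 - t0) ≤ 1 * (z.1 - t0) := mul_le_mul_of_nonneg_right hτ.2 (by linarith only [h2])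
        set t' := t0 + τ * (z.1 - t0) with ht'
        have ht'1 : t0 ≤ t' := by linarith only [e1]
        have ht'2 : t' ≤ z.1 := by linarith only [e2]
        have hT' : t' ∈ TT V t0 z.2 := ⟨ht'1, fun s hs => hT.2 s ⟨hs.1, hs.2.trans ht'2⟩⟩
        have hg := (hline z.2 hzb t' hT').2
        have hrel := H.rel_ends (vline_cone ht'2 z.2)
          (vline_inV ht'2 (fun s hs => hT.2 s ⟨ht'1.trans hs.1, hs.2⟩))
        have hmem : ((t', z.2) : P4) ∈ V ∩ Psi ⁻¹' KB p0 (5 * C * η1) v2 :=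
          ⟨hT'.2 t' ⟨ht'1, le_rfl⟩, hg, hrel.1.trans h4⟩
        rw [hVF] at hmem
        exact hmem.2
      · rintro ⟨⟨⟨h1, h2⟩, h3⟩, h4⟩
        have hzb : z.2 ∈ Metric.ball (0 : P3) r := by
          rw [mem_ball_zero_iff]; exact h1.trans_lt hr'
        have hall : ∀ τ ∈ Icc (0:ℝ) 1, ((t0 + τ * (z.1 - t0), z.2) : P4) ∈
            V ∩ Psi ⁻¹' KB p0 (5 * C * η1) v2 := by
          intro τ hτ
          rw [hVF]
          refine ⟨?_, h4 τ hτ⟩
          have e1 : 0 ≤ τ * (z.1 - t0) := mul_nonneg hτ.1 (by linarith only [h2])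
          have e2 : τ * (z.1 - t0) ≤ 1 * (z.1 - t0) :=
            mul_le_mul_of_nonneg_right hτ.2 (by linarith only [h2])
          rw [mem_ball_zero_iff, vline_norm]
          apply max_lt
          · rw [abs_lt]; constructor <;> linarith only [hr, hr2, ht0R, e1, h3, e2]
          · linarith only [hr, hr2, hr', h1]
        refine ⟨h1, h2, ?_, ?_⟩
        · refine (hfacts z.2 hzb).2.2.2.1 z.1 ⟨h2, fun t' ht' => ?_⟩
          rcases eq_or_lt_of_le h2 with he | hlt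
          · have : t' = t0 := le_antisymm (by rw [he]; exact ht'.2) ht'.1
            rw [this]; exact hslice z.2 hzb
          · have hpos : 0 < z.1 - t0 := by linarith only [hlt]
            have h5 := hall ((t' - t0) / (z.1 - t0)) ⟨div_nonneg (by linarith only [ht'.1]) hpos.le, by
              rw [div_le_one hpos]; linarith only [ht'.2]⟩
            rw [div_mul_cancel₀ _ hpos.ne'] at h5
            have : t0 + (t' - t0) = t' := by ring
            rw [this] at h5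
            exact h5.1
        · have h5 := (hall 1 ⟨zero_le_one, le_rfl⟩).2.2
          have : ((t0 + 1 * (z.1 - t0), z.2) : P4) = z := by
            ext <;> simp
          rw [this] at h5
          exact h5
    rw [hset]
    refine (isCompact_closedBall (0 : P4) (R0 / 2)).of_isClosed_subset ?_ ?_
    · refine IsClosed.inter ((IsClosed.inter ?_ ?_).inter ?_) ?_
      · exact isClosed_le (by fun_prop) continuous_const
      · exact isClosed_le continuous_const (by fun_prop)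
      · exact isClosed_le (by fun_prop) continuous_const
      · exact isClosed_biInter fun τ _ => hF.preimage (by fun_prop)
    · rintro z ⟨⟨⟨h1, h2⟩, h3⟩, -⟩
      simp only [mem_ofPred_eq] at h1 h2 h3
      rw [mem_closedBall_zero_iff, norm_P4]
      apply max_le
      · rw [abs_le]; constructor <;> linarith only [hr, hr2, ht0R, h2, h3]
      · linarith only [hr, hr2, hr', h1]
  · -- exit
    intro x hx v2 hv2
    by_contra hcon
    push Not at hcon
    obtain ⟨F, hF, hVF⟩ := H.cl _ (KB_compact p0 (5 * C * η1) v2) (KB_sub hη' hv2)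
    obtain ⟨f1, f2, f3, f4, f5⟩ := hfacts x hx
    have hmem : ∀ t ∈ Ico t0 (exitT V t0 x), ((t, x) : P4) ∈ F := by
      intro t ht
      have hT := f2 t ht
      have : ((t, x) : P4) ∈ V ∩ Psi ⁻¹' KB p0 (5 * C * η1) v2 :=
        ⟨hT.2 t ⟨ht.1, le_rfl⟩, (hline x hx t hT).2, hcon t ht⟩
      rw [hVF] at this
      exact this.2
    have hlim : Tendsto (fun t : ℝ => ((t, x) : P4)) (𝓝[<] (exitT V t0 x))
        (𝓝 ((exitT V t0 x, x) : P4)) := by
      have hcc : Continuous (fun t : ℝ => ((t, x) : P4)) := by fun_prop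
      exact (hcc.tendsto _).mono_left nhdsWithin_le_nhds
    have hFin : ((exitT V t0 x, x) : P4) ∈ F := by
      refine hF.mem_of_tendsto hlim ?_
      filter_upwards [Ico_mem_nhdsLT f1] with t ht
      exact hmem t ht
    have hball : ((exitT V t0 x, x) : P4) ∈ Metric.ball (0 : P4) R0 := by
      rw [mem_ball_zero_iff] at hx ⊢
      rw [vline_norm]
      apply max_lt
      · rw [abs_lt]; constructor <;> linarith only [hr, hr2, ht0R, f1, f5]
      · linarith only [hr, hr2, hx]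
    have : ((exitT V t0 x, x) : P4) ∈ V ∩ Psi ⁻¹' KB p0 (5 * C * η1) v2 := by
      rw [hVF]; exact ⟨hball, hFin⟩
    exact f3 this.1
  · -- norm bound
    rintro z ⟨h1, h2, h3⟩
    obtain ⟨-, -, -, -, f5⟩ := hfacts z.2 h1
    rw [mem_ball_zero_iff] at h1
    rw [norm_P4]
    apply max_le
    · rw [abs_le]; constructor <;> linarith only [hr, hr2, ht0R, h2, h3, f5]
    · linarith only [hr, hr2, h1]

/-- The structure lemma. -/
theorem main (H : SHyp K G Psi Phi V R0 ρ C p0) (hc : SCurve Psi V p0 γ s0 η1)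
    (hη1 : 0 < η1) (hη : 5 * C * (5 * C * η1) < ρ) (hη2 : 280 * C ^ 6 * (5 * C * η1) ≤ 1) :
    ∃ (t0 r : ℝ) (f : P3 → ℝ), 0 < r ∧ (∀ x ∈ Metric.ball (0 : P3) r, t0 < f x) ∧
      (∀ x ∈ Metric.ball (0 : P3) r, ∀ t ∈ Ico t0 (f x), ((t, x) : P4) ∈ V) ∧
      IsOpen (DD t0 r f) ∧
      (∀ r' < r, ∀ v2 < 0, IsCompact {z : P4 | ‖z.2‖ ≤ r' ∧ t0 ≤ z.1 ∧ z.1 < f z.2 ∧
        (Psi z).2.1 ≤ v2}) ∧
      (∀ x ∈ Metric.ball (0 : P3) r, ∀ v2 < 0, ∃ t ∈ Ico t0 (f x), v2 < (Psi (t, x)).2.1) ∧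
      (∀ z ∈ DD t0 r f, ‖z‖ ≤ R0 / 2) := by
  obtain ⟨t0, r, f, h1, h2, h3, h4, h5, h6, h7, -⟩ := H.main' hc hη1 hη hη2
  exact ⟨t0, r, f, h1, h2, h3, h4, h5, h6, h7⟩

end SHyp

end Vale.Agent.P354
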