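import Mathlib
import Vale.Agent.P354.GramP
import Vale.Agent.P354.SMain

set_option maxSynthPendingDepth 3

open Set

namespace Vale.Agent.P354

/-- coordinates of P4 -/
noncomputable def eqP : P4 ≃ₗ[ℝ] (Fin 4 → ℝ) where
  toFun a := ![a.1, a.2.1, a.2.2.1, a.2.2.2]
  invFun x := (x 0, x 1, x 2, x 3)
  map_add' a b := by simp only [Prod.fst_add, Prod.snd_add, Matrix.add_cons, Matrix.head_cons, Matrix.tail_cons, Matrix.empty_add_empty]
  map_smul' t a := by simp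
  left_inv a := by simp
  right_inv x := by ext i; fin_cases i <;> simp

/-- the standard basis as a basis -/
noncomputable def BP : Module.Basis (Fin 4) ℝ P4 := Module.Basis.ofEquivFun eqP

lemma BP_apply (i : Fin 4) : BP i = bP i := by
  have h : BP i = eqP.symm (Pi.single i 1) := by
    simp only [BP, Module.Basis.ofEquivFun, Module.Basis.coe_ofRepr, LinearEquiv.trans_symm, LinearEquiv.symm_symm, LinearEquiv.trans_apply, Finsupp.linearEquivFunOnFinite_single]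
  rw [h]
  fin_cases i <;> simp only [eqP, Fin.isValue, LinearEquiv.symm_mk, LinearMap.coe_mk, AddHom.coe_mk, Fin.zero_eta, LinearEquiv.coe_mk, Pi.single_eq_same, ne_eq, one_ne_zero, not_false_eq_true, Pi.single_eq_of_ne, Fin.reduceEq, bP, Nat.succ_eq_add_one, Nat.reduceAdd, Matrix.cons_val_zero, Fin.mk_one, zero_ne_one, Matrix.cons_val_one, Fin.reduceFinMk, Matrix.cons_val]

/-- Gram matrix of the standard side -/
noncomputable def GramK (K : Coef) (x : P4) : Matrix (Fin 4) (Fin 4) ℝ :=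
  Matrix.of fun i j => K.gF x (bP i) (bP j)

lemma det_GramK (K : Coef) (x : P4) :
    (GramK K x).det = -(K.om x ^ 2 * (K.g11 x * K.g22 x - K.g12 x ^ 2)) := by
  rw [Matrix.det_succ_row_zero]
  simp only [Nat.succ_eq_add_one, Nat.reduceAdd, GramK, Coef.gF, bP, neg_mul, Coef.h1, Coef.h2, Fin.isValue, Matrix.of_apply, Matrix.cons_val_zero, zero_mul, add_zero, mul_zero, neg_zero, sub_zero, one_mul, zero_add, sub_self, Matrix.submatrix, Fin.succAbove, Matrix.cons_val_succ, Matrix.det_fin_three, Fin.castSucc_zero, Fin.succ_zero_eq_one, mul_one, zero_sub, mul_neg, Matrix.cons_val_one, Fin.castSucc_one, Fin.succ_one_eq_two, Matrix.cons_val, Fin.reduceCastSucc, Fin.reduceSucc, sub_neg_eq_add, Fin.sum_univ_succ, Fin.coe_ofNat_eq_mod, Nat.zero_mod, pow_zero, lt_self_iff_false, ↓reduceIte, neg_neg, not_lt_zero, Fin.val_succ, Fin.succ_pos, pow_one, neg_add_rev, Fin.lt_one_iff, Fin.reduceEq, even_two, Even.neg_pow, one_pow,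 Fin.reduceLT, Finset.univ_unique, Fin.default_eq_zero, Fin.val_eq_zero, Matrix.cons_val_fin_one, Finset.sum_singleton]
  ring

lemma gF_smul_left (K : Coef) (x a b : P4) (t : ℝ) : K.gF x (t • a) b = t * K.gF x a b := by
  simp only [Coef.gF, Coef.h1, Coef.h2, Prod.smul_fst, Prod.smul_snd, smul_eq_mul]; ring

lemma gF_smul_right (K : Coef) (x a b : P4) (t : ℝ) : K.gF x a (t • b) = t * K.gF x a b := by
  simp only [Coef.gF, Coef.h1, Coef.h2, Prod.smul_fst, Prod.smul_snd, smul_eq_mul]; ring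

lemma gF_expand (K : Coef) (x : P4) (c d : Fin 4 → ℝ) :
    K.gF x (∑ i, c i • bP i) (∑ j, d j • bP j) = ∑ i, ∑ j, c i * (K.gF x (bP i) (bP j)) * d j := by
  simp only [Fin.sum_univ_four, K.gF_add_left, K.gF_add_right, gF_smul_left, gF_smul_right]
  ring

lemma Gram_eq {K : Coef} {G : P4 → P4 →L[ℝ] P4 →L[ℝ] ℝ} {Psi : P4 → P4} {V : Set P4}
    (h : Iso K G Psi V) {z : P4} (hz : z ∈ V) :
    Gram (G z) = (LinearMap.toMatrix BP BP (fderiv ℝ Psi z : P4 →ₗ[ℝ] P4)).transpose *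
      GramK K (Psi z) * (LinearMap.toMatrix BP BP (fderiv ℝ Psi z : P4 →ₗ[ℝ] P4)) := by
  set L : Matrix (Fin 4) (Fin 4) ℝ := LinearMap.toMatrix BP BP (fderiv ℝ Psi z : P4 →ₗ[ℝ] P4)
    with hL
  have hcol : ∀ j, fderiv ℝ Psi z (bP j) = ∑ i, L i j • bP i := by
    intro j
    have h1 := BP.sum_repr (fderiv ℝ Psi z (bP j))
    rw [← h1]
    refine Finset.sum_congr rfl fun i _ => ?_
    rw [hL, LinearMap.toMatrix_apply, BP_apply, BP_apply]
    rfl
  ext i j
  rw [Matrix.mul_apply]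
  simp only [Matrix.mul_apply, Matrix.transpose_apply]
  have h2 : Gram (G z) i j = G z (bP i) (bP j) := rfl
  rw [h2, h.iso z hz, hcol, hcol, gF_expand]
  simp only [Finset.sum_mul]
  rw [Finset.sum_comm]
  rfl

lemma det_bounds {K : Coef} {G : P4 → P4 →L[ℝ] P4 →L[ℝ] ℝ} {Psi : P4 → P4} {V : Set P4}
    (h : Iso K G Psi V) {z : P4} (hz : z ∈ V) {C : ℝ} (hC : CBd K C (Psi z))
    (hdet : (Gram (G z)).det ∈ Ioo (-2 : ℝ) (-(1 / 2))) :
    1 ≤ 4 * C ^ 4 * |(fderiv ℝ Psi z).det| ∧ |(fderiv ℝ Psi z).det| ≤ 4 * C ^ 4 := by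
  have h1 := Gram_eq h hz
  have h2 := congrArg Matrix.det h1
  rw [Matrix.det_mul, Matrix.det_mul, Matrix.det_transpose, LinearMap.det_toMatrix,
    det_GramK] at h2
  have h3 : LinearMap.det (fderiv ℝ Psi z : P4 →ₗ[ℝ] P4) = (fderiv ℝ Psi z).det := rfl
  rw [h3] at h2
  set D := (fderiv ℝ Psi z).det with hD
  set om := K.om (Psi z) with hom
  set g := K.g11 (Psi z) * K.g22 (Psi z) - K.g12 (Psi z) ^ 2 with hg
  have hC1 := hC.one_le
  have hC0 := hC.C_pos
  have hompos := hC.om_pos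
  have hom1 : om ^ 2 ≤ C ^ 2 := by
    have := hC.om_hi
    gcongr
  have hom2 : 1 ≤ C ^ 2 * om ^ 2 := by
    have h4 := hC.om_lo
    rw [div_le_iff₀ hC0] at h4
    have h5 : 1 ≤ (om * C) ^ 2 := one_le_pow₀ h4
    calc (1:ℝ) ≤ (om * C) ^ 2 := h5
      _ = _ := by ring
  have hg1 : g ≤ C ^ 2 := by
    have a1 : K.g11 (Psi z) * K.g22 (Psi z) ≤ C * C := by
      calc K.g11 (Psi z) * K.g22 (Psi z) ≤ |K.g11 (Psi z) * K.g22 (Psi z)| := le_abs_self _
        _ = |K.g11 (Psi z)| * |K.g22 (Psi z)| := abs_mul _ _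
        _ ≤ C * C := mul_le_mul hC.g11_hi hC.g22_hi (abs_nonneg _) hC0.le
    have a2 := sq_nonneg (K.g12 (Psi z))
    rw [hg]; linarith only [a1, a2]
  have hg2 : 1 ≤ C ^ 2 * g := by
    have b1 := hC.g_lo (K.g12 (Psi z)) (-K.g11 (Psi z))
    have b2 := hC.g_lo 1 0
    rw [div_le_iff₀ hC0] at b1 b2
    have b3 : 1 ≤ K.g11 (Psi z) * C := by linarith only [b2]
    have b4 : 0 < K.g11 (Psi z) := by
      by_contra hcon
      push Not at hcon
      linarith only [b2, mul_nonpos_of_nonpos_of_nonneg hcon hC0.le]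
    have b5 : K.g11 (Psi z) ^ 2 ≤ K.g11 (Psi z) * g * C := by
      have : K.g11 (Psi z) * K.g12 (Psi z) ^ 2 + 2 * K.g12 (Psi z) * K.g12 (Psi z) *
        -K.g11 (Psi z) + K.g22 (Psi z) * (-K.g11 (Psi z)) ^ 2 = K.g11 (Psi z) * g := by
        rw [hg]; ring
      rw [this] at b1
      linarith only [b1, sq_nonneg (K.g12 (Psi z))]
    have b6 : K.g11 (Psi z) ≤ g * C := by
      have : K.g11 (Psi z) * K.g11 (Psi z) ≤ K.g11 (Psi z) * (g * C) := by linarith only [b5]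
      exact le_of_mul_le_mul_left this b4
    linarith only [b2, mul_le_mul_of_nonneg_right b6 hC0.le]
  have hD2 : D * -(om ^ 2 * g) * D = -(D ^ 2 * (om ^ 2 * g)) := by ring
  rw [hD2] at h2
  have hdl : D ^ 2 * (om ^ 2 * g) < 2 := by linarith only [h2, hdet.1]
  have hdu : 1 / 2 < D ^ 2 * (om ^ 2 * g) := by linarith only [h2, hdet.2]
  have hgpos : 0 < g := by
    by_contra hcon
    push Not at hcon
    linarith only [hg2, mul_nonpos_of_nonneg_of_nonpos (sq_nonneg C) hcon]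
  have hC4 : 0 < C ^ 4 := by positivity
  have hC41 : 1 ≤ C ^ 4 := one_le_pow₀ hC1
  have e1 : D ^ 2 ≤ 2 * C ^ 4 := by
    have : 1 ≤ C ^ 4 * (om ^ 2 * g) := by
      calc (1:ℝ) ≤ (C ^ 2 * om ^ 2) * (C ^ 2 * g) := one_le_mul_of_one_le_of_one_le hom2 hg2
        _ = _ := by ring
    calc D ^ 2 = D ^ 2 * 1 := by ring
      _ ≤ D ^ 2 * (C ^ 4 * (om ^ 2 * g)) := by gcongr
      _ = C ^ 4 * (D ^ 2 * (om ^ 2 * g)) := by ring
      _ ≤ C ^ 4 * 2 := by gcongr
      _ = _ := by ring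
  have e2 : 1 / 2 ≤ D ^ 2 * C ^ 4 := by
    calc 1 / 2 ≤ D ^ 2 * (om ^ 2 * g) := hdu.le
      _ ≤ D ^ 2 * (C ^ 2 * C ^ 2) := by gcongr
      _ = _ := by ring
  constructor
  · have e3 : 1 ≤ (4 * C ^ 4 * |D|) ^ 2 := by
      have : (4 * C ^ 4 * |D|) ^ 2 = 16 * C ^ 4 * (D ^ 2 * C ^ 4) := by
        rw [mul_pow, sq_abs]; ring
      rw [this]
      linarith only [mul_le_mul hC41 e2 (by norm_num) hC4.le]
    have e4 : 0 ≤ 4 * C ^ 4 * |D| := by positivity
    by_contra hcon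
    push Not at hcon
    linarith only [e3, pow_lt_one₀ e4 hcon two_ne_zero]
  · apply abs_le_of_sq_le_sq _ (by positivity)
    calc D ^ 2 ≤ 2 * C ^ 4 := e1
      _ ≤ 16 * (C ^ 4 * C ^ 4) := by linarith only [hC4, mul_le_mul_of_nonneg_left hC41 hC4.le]
      _ = _ := by ring

end Vale.Agent.P354
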