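import Vale.Agent.P354.Geom

set_option maxSynthPendingDepth 3

namespace Vale.Agent.P354

/-- `Psi : V → standard side` is a `C^2` isometry from the metric `G` to the double null metric. -/
structure Iso (K : Coef) (G : P4 → P4 →L[ℝ] P4 →L[ℝ] ℝ) (Psi : P4 → P4) (V : Set P4) : Prop where
  isOpen : IsOpen V
  smooth : ContDiffOn ℝ 2 Psi V
  diffG : ∀ z ∈ V, DifferentiableAt ℝ G z
  diffK : ∀ z ∈ V, K.DiffAt (Psi z)
  iso : ∀ z ∈ V, ∀ a b, G z a b = K.gF (Psi z) (fderiv ℝ Psi z a) (fderiv ℝ Psi z b)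

/-- second derivative -/
noncomputable def Sd (Psi : P4 → P4) (z a b : P4) : P4 := fderiv ℝ (fderiv ℝ Psi) z a b

namespace Iso

variable {K : Coef} {G : P4 → P4 →L[ℝ] P4 →L[ℝ] ℝ} {Psi : P4 → P4} {V : Set P4}

lemma contDiffAt (h : Iso K G Psi V) {z : P4} (hz : z ∈ V) : ContDiffAt ℝ 2 Psi z :=
  h.smooth.contDiffAt (h.isOpen.mem_nhds hz)

lemma hasFDerivAt (h : Iso K G Psi V) {z : P4} (hz : z ∈ V) :
    HasFDerivAt Psi (fderiv ℝ Psi z) z :=
  ((h.contDiffAt hz).differentiableAt (by norm_num)).hasFDerivAt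

lemma contDiffAt_fderiv (h : Iso K G Psi V) {z : P4} (hz : z ∈ V) :
    ContDiffAt ℝ 1 (fderiv ℝ Psi) z :=
  (h.contDiffAt hz).fderiv_right (by norm_num)

lemma hasFDerivAt_fderiv (h : Iso K G Psi V) {z : P4} (hz : z ∈ V) :
    HasFDerivAt (fderiv ℝ Psi) (fderiv ℝ (fderiv ℝ Psi) z) z :=
  ((h.contDiffAt_fderiv hz).differentiableAt (by norm_num)).hasFDerivAt

lemma Sd_symm (h : Iso K G Psi V) {z : P4} (hz : z ∈ V) (a b : P4) :
    Sd Psi z a b = Sd Psi z b a :=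
  ((h.contDiffAt hz).isSymmSndFDerivAt (by simp)) a b

lemma deriv_iso (h : Iso K G Psi V) {z : P4} (hz : z ∈ V) (a b c : P4) :
    fderiv ℝ G z c a b = K.dgF (Psi z) (fderiv ℝ Psi z c) (fderiv ℝ Psi z a) (fderiv ℝ Psi z b)
      + K.gF (Psi z) (Sd Psi z c a) (fderiv ℝ Psi z b)
      + K.gF (Psi z) (fderiv ℝ Psi z a) (Sd Psi z c b) := by
  have hl : HasDerivAt (fun τ : ℝ => z + τ • c) c 0 := by
    simpa using ((hasDerivAt_id (0:ℝ)).smul_const c).const_add z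
  have hz0 : z + (0:ℝ) • c = z := by simp
  have hX : HasDerivAt (fun τ : ℝ => Psi (z + τ • c)) (fderiv ℝ Psi z c) 0 := by
    have h1 : HasFDerivAt Psi (fderiv ℝ Psi z) (z + (0:ℝ) • c) := by
      rw [hz0]; exact h.hasFDerivAt hz
    exact h1.comp_hasDerivAt (0:ℝ) hl
  have hD : HasDerivAt (fun τ : ℝ => fderiv ℝ Psi (z + τ • c)) (fderiv ℝ (fderiv ℝ Psi) z c) 0 := by
    have h1 : HasFDerivAt (fderiv ℝ Psi) (fderiv ℝ (fderiv ℝ Psi) z) (z + (0:ℝ) • c) := by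
      rw [hz0]; exact h.hasFDerivAt_fderiv hz
    exact h1.comp_hasDerivAt (0:ℝ) hl
  have hA : ∀ a : P4, HasDerivAt (fun τ : ℝ => fderiv ℝ Psi (z + τ • c) a) (Sd Psi z c a) 0 := by
    intro a
    have := hD.clm_apply (hasDerivAt_const (0:ℝ) a)
    simpa [Sd] using this
  have hG : HasDerivAt (fun τ : ℝ => G (z + τ • c)) (fderiv ℝ G z c) 0 := by
    have h1 : HasFDerivAt G (fderiv ℝ G z) (z + (0:ℝ) • c) := by
      rw [hz0]; exact (h.diffG z hz).hasFDerivAt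
    exact h1.comp_hasDerivAt (0:ℝ) hl
  have hGab : HasDerivAt (fun τ : ℝ => G (z + τ • c) a b) (fderiv ℝ G z c a b) 0 := by
    have h2 := (hG.clm_apply (hasDerivAt_const (0:ℝ) a)).clm_apply (hasDerivAt_const (0:ℝ) b)
    simpa using h2
  have hK0 : K.DiffAt (Psi (z + (0:ℝ) • c)) := by rw [hz0]; exact h.diffK z hz
  have hR := Coef.hasDerivAt_gF K (X := fun τ : ℝ => Psi (z + τ • c))
    (A := fun τ : ℝ => fderiv ℝ Psi (z + τ • c) a) (B := fun τ : ℝ => fderiv ℝ Psi (z + τ • c) b)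
    hK0 hX (hA a) (hA b)
  have hev : (fun τ : ℝ => G (z + τ • c) a b) =ᶠ[nhds 0]
      (fun τ : ℝ => K.gF (Psi (z + τ • c)) (fderiv ℝ Psi (z + τ • c) a)
        (fderiv ℝ Psi (z + τ • c) b)) := by
    have hc : Filter.Tendsto (fun τ : ℝ => z + τ • c) (nhds 0) (nhds (z + (0:ℝ) • c)) :=
      hl.continuousAt
    rw [hz0] at hc
    filter_upwards [hc.eventually (h.isOpen.mem_nhds hz)] with τ hτ
    exact h.iso _ hτ a b
  have := (hGab.congr_of_eventuallyEq hev.symm).unique hR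
  rw [this]
  simp only [hz0]

/-- Christoffel transformation law (doubled, first kind). -/
lemma transf (h : Iso K G Psi V) {z : P4} (hz : z ∈ V) (a b c : P4) :
    2 * K.gF (Psi z) (Sd Psi z a b) (fderiv ℝ Psi z c) =
      (fderiv ℝ G z a b c + fderiv ℝ G z b a c - fderiv ℝ G z c a b)
      - (K.dgF (Psi z) (fderiv ℝ Psi z a) (fderiv ℝ Psi z b) (fderiv ℝ Psi z c)
        + K.dgF (Psi z) (fderiv ℝ Psi z b) (fderiv ℝ Psi z a) (fderiv ℝ Psi z c)
        - K.dgF (Psi z) (fderiv ℝ Psi z c) (fderiv ℝ Psi z a) (fderiv ℝ Psi z b)) := by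
  rw [h.deriv_iso hz b c a, h.deriv_iso hz a c b, h.deriv_iso hz a b c,
    h.Sd_symm hz b a, h.Sd_symm hz c a, h.Sd_symm hz c b]
  rw [K.gF_symm (Psi z) (fderiv ℝ Psi z b) (Sd Psi z a c),
    K.gF_symm (Psi z) (fderiv ℝ Psi z a) (Sd Psi z b c)]
  ring

end Iso

end Vale.Agent.P354
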