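import Mathlib
import Vale.Agent.P354.Geom
import Vale.Agent.P354.LorentzAlg

set_option maxSynthPendingDepth 3

namespace Vale.Agent.P354

/-- Pointwise bounds of the coefficients. -/
structure CBd (K : Coef) (C : ℝ) (x : P4) : Prop where
  one_le : 1 ≤ C
  om_lo : 1 / C ≤ K.om x
  om_hi : K.om x ≤ C
  g_lo : ∀ p q : ℝ, (p ^ 2 + q ^ 2) / C ≤ K.g11 x * p ^ 2 + 2 * K.g12 x * p * q + K.g22 x * q ^ 2
  g11_hi : |K.g11 x| ≤ C
  g12_hi : |K.g12 x| ≤ C
  g22_hi : |K.g22 x| ≤ C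
  s1_hi : |K.s1 x| ≤ C
  s2_hi : |K.s2 x| ≤ C

/-- the quadratic form of the sphere part -/
def Qg (K : Coef) (x : P4) (p q : ℝ) : ℝ := K.g11 x * p ^ 2 + 2 * K.g12 x * p * q + K.g22 x * q ^ 2

lemma gF_diag (K : Coef) (x a : P4) :
    K.gF x a a = -(2 * K.om x * (a.2.1 * a.2.2.1)) + Qg K x (K.h1 x a) (K.h2 x a) := by
  unfold Coef.gF Qg; ring

namespace CBd

variable {K : Coef} {C : ℝ} {x : P4}

lemma C_pos (h : CBd K C x) : 0 < C := by linarith only [h.one_le]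

lemma om_pos (h : CBd K C x) : 0 < K.om x := lt_of_lt_of_le (by have := h.C_pos; positivity) h.om_lo

lemma Q_nonneg (h : CBd K C x) (p q : ℝ) : 0 ≤ Qg K x p q := by
  have h1 := h.g_lo p q
  have := h.C_pos
  have h2 : 0 ≤ (p ^ 2 + q ^ 2) / C := by positivity
  unfold Qg; linarith

lemma det_nonneg (h : CBd K C x) : 0 ≤ K.g11 x * K.g22 x - K.g12 x ^ 2 := by
  have h1 := h.Q_nonneg (K.g12 x) (-K.g11 x)
  have h2 := h.g_lo 1 0
  have h3 : 0 < K.g11 x := by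
    have := h.C_pos
    have h4 : 0 < (1 ^ 2 + 0 ^ 2) / C := by positivity
    linarith
  unfold Qg at h1
  have h5 : 0 ≤ K.g11 x * (K.g11 x * K.g22 x - K.g12 x ^ 2) := by linarith only [h1]
  exact nonneg_of_mul_nonneg_right h5 h3

/-- Cauchy-Schwarz -/
lemma cs (h : CBd K C x) (p q p' q' : ℝ) :
    (K.g11 x * (p * p') + K.g12 x * (p * q' + q * p') + K.g22 x * (q * q')) ^ 2 ≤
      Qg K x p q * Qg K x p' q' := by
  have h1 := h.det_nonneg
  have h2 : Qg K x p q * Qg K x p' q' -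
      (K.g11 x * (p * p') + K.g12 x * (p * q' + q * p') + K.g22 x * (q * q')) ^ 2 =
      (K.g11 x * K.g22 x - K.g12 x ^ 2) * (p * q' - q * p') ^ 2 := by
    unfold Qg; ring
  have h3 : 0 ≤ (K.g11 x * K.g22 x - K.g12 x ^ 2) * (p * q' - q * p') ^ 2 := by positivity
  linarith only [h2, h3]

lemma uv_pos (h : CBd K C x) {a : P4} (ha : K.gF x a a < 0) : 0 < a.2.1 * a.2.2.1 := by
  rw [gF_diag] at ha
  have h1 := h.Q_nonneg (K.h1 x a) (K.h2 x a)
  have h2 := h.om_pos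
  have h3 : 0 < K.om x * (a.2.1 * a.2.2.1) := by linarith only [ha, h1]
  exact (pos_iff_pos_of_mul_pos h3).1 h2

lemma u_pos (h : CBd K C x) {a : P4} (ha : K.gF x a a < 0) (hv : 0 < a.2.1) : 0 < a.2.2.1 :=
  (pos_iff_pos_of_mul_pos (h.uv_pos ha)).1 hv

lemma hat_le (h : CBd K C x) {a : P4} (ha : K.gF x a a ≤ 0) :
    K.h1 x a ^ 2 + K.h2 x a ^ 2 ≤ 2 * C ^ 2 * (a.2.1 * a.2.2.1) ∨ a.2.1 * a.2.2.1 < 0 := by
  by_cases hs : a.2.1 * a.2.2.1 < 0
  · exact Or.inr hs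
  · left
    push Not at hs
    rw [gF_diag] at ha
    have h1 := h.g_lo (K.h1 x a) (K.h2 x a)
    have hC := h.C_pos
    have h2 := h.om_hi
    rw [div_le_iff₀ hC] at h1
    unfold Qg at ha
    have h3 : K.om x * (a.2.1 * a.2.2.1) ≤ C * (a.2.1 * a.2.2.1) := by gcongr
    linarith [mul_nonneg hC.le (neg_nonneg.2 ha), mul_le_mul_of_nonneg_left h3 hC.le]

/-- two timelike vectors with positive v components are in the same cone -/
lemma gF_neg (h : CBd K C x) {a b : P4} (ha : K.gF x a a < 0) (hb : K.gF x b b < 0)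
    (hav : 0 < a.2.1) (hbv : 0 < b.2.1) : K.gF x a b < 0 := by
  have hau := h.u_pos ha hav
  have hbu := h.u_pos hb hbv
  have hom := h.om_pos
  have h1 := h.cs (K.h1 x a) (K.h2 x a) (K.h1 x b) (K.h2 x b)
  have hQa := h.Q_nonneg (K.h1 x a) (K.h2 x a)
  have hQb := h.Q_nonneg (K.h1 x b) (K.h2 x b)
  have e1 : Qg K x (K.h1 x a) (K.h2 x a) < 2 * K.om x * (a.2.1 * a.2.2.1) := by
    have := gF_diag K x a; linarith only [ha, this]
  have e2 : Qg K x (K.h1 x b) (K.h2 x b) < 2 * K.om x * (b.2.1 * b.2.2.1) := by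
    have := gF_diag K x b; linarith only [hb, this]
  set m : ℝ := K.g11 x * (K.h1 x a * K.h1 x b) + K.g12 x * (K.h1 x a * K.h2 x b +
    K.h2 x a * K.h1 x b) + K.g22 x * (K.h2 x a * K.h2 x b) with hm
  have e3 : m ^ 2 < (K.om x * (a.2.1 * b.2.2.1 + a.2.2.1 * b.2.1)) ^ 2 := by
    calc m ^ 2 ≤ _ := h1
      _ < (2 * K.om x * (a.2.1 * a.2.2.1)) * (2 * K.om x * (b.2.1 * b.2.2.1)) := by
          have : 0 < 2 * K.om x * (b.2.1 * b.2.2.1) := by positivity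
          calc _ ≤ Qg K x (K.h1 x a) (K.h2 x a) * (2 * K.om x * (b.2.1 * b.2.2.1)) := by gcongr
            _ < _ := by gcongr
      _ ≤ _ := by
          have h4 : 0 ≤ K.om x ^ 2 * (a.2.1 * b.2.2.1 - a.2.2.1 * b.2.1) ^ 2 := by positivity
          linarith only [h4]
  have hpos : 0 ≤ K.om x * (a.2.1 * b.2.2.1 + a.2.2.1 * b.2.1) := by positivity
  have e4 := (abs_lt.1 (abs_lt_of_sq_lt_sq e3 hpos)).2
  have e5 : K.gF x a b = -(K.om x * (a.2.1 * b.2.2.1 + a.2.2.1 * b.2.1)) + m := by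
    rw [hm]; unfold Coef.gF; ring
  rw [e5]; linarith only [e4]

lemma v_pos_of_gF_neg (h : CBd K C x) {a b : P4} (ha : K.gF x a a < 0) (hb : K.gF x b b < 0)
    (hav : 0 < a.2.1) (hab : K.gF x a b < 0) : 0 < b.2.1 := by
  by_contra hcon
  push Not at hcon
  have hne : b.2.1 ≠ 0 := by
    intro h0
    have := h.uv_pos hb
    rw [h0] at this; simp at this
  have hneg : 0 < (-b).2.1 := by
    have : (-b).2.1 = -(b.2.1) := rfl
    rw [this]
    have := lt_of_le_of_ne hcon hne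
    linarith
  have hb' : K.gF x (-b) (-b) < 0 := by
    have : K.gF x (-b) (-b) = K.gF x b b := by
      simp only [Coef.gF, Coef.h1, Coef.h2, Prod.fst_neg, Prod.snd_neg]; ring
    rw [this]; exact hb
  have h1 := h.gF_neg ha hb' hav hneg
  have h2 : K.gF x a (-b) = - K.gF x a b := by
    simp only [Coef.gF, Coef.h1, Coef.h2, Prod.fst_neg, Prod.snd_neg]; ring
  rw [h2] at h1
  linarith

end CBd

/-- closeness to the Minkowski form -/
def NearM (B : P4 →L[ℝ] P4 →L[ℝ] ℝ) : Prop := ∀ a b, |B a b - mink a b| ≤ 1 / 100 * ‖a‖ * ‖b‖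

/-- the vertical vector -/
def Tv : P4 := (1, 0, 0, 0)

lemma norm_Tv : ‖Tv‖ = 1 := by
  simp only [Tv, Prod.norm_def, norm_one, norm_zero, max_self, zero_le_one, sup_of_le_left]

/-- future cone with opening κ -/
def cone (κ : ℝ) : Set P4 := {a | ‖a.2‖ ≤ κ * a.1}

lemma mem_cone {κ : ℝ} {a : P4} : a ∈ cone κ ↔ ‖a.2‖ ≤ κ * a.1 := Iff.rfl

lemma abs_le_norm3 (a : P4) : |a.2.1| ≤ ‖a.2‖ ∧ |a.2.2.1| ≤ ‖a.2‖ ∧ |a.2.2.2| ≤ ‖a.2‖ := by
  refine ⟨norm_fst_le a.2, ?_, ?_⟩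
  · exact (norm_fst_le a.2.2).trans (norm_snd_le a.2)
  · exact (norm_snd_le a.2.2).trans (norm_snd_le a.2)

lemma norm_P4 (a : P4) : ‖a‖ = max |a.1| ‖a.2‖ := rfl

lemma mink_self (a : P4) : mink a a = -(a.1 ^ 2) + a.2.1 ^ 2 + a.2.2.1 ^ 2 + a.2.2.2 ^ 2 := by
  unfold mink; ring

namespace NearM

variable {B : P4 →L[ℝ] P4 →L[ℝ] ℝ}

/-- causal vectors are controlled by their time component -/
lemma norm_le_of_causal (h : NearM B) {a : P4} (ha : B a a ≤ 0) : ‖a‖ ≤ 2 * |a.1| := by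
  have h1 := (abs_le.1 (h a a)).1
  rw [mink_self] at h1
  by_contra hcon
  push Not at hcon
  have h3 : ‖a‖ = ‖a.2‖ := by
    rw [norm_P4] at hcon ⊢
    rcases le_total |a.1| ‖a.2‖ with h | h
    · exact max_eq_right h
    · rw [max_eq_left h] at hcon
      have := abs_nonneg a.1
      linarith only [hcon, this]
  have h4 : ‖a.2‖ ^ 2 ≤ a.2.1 ^ 2 + a.2.2.1 ^ 2 + a.2.2.2 ^ 2 := by
    have e1 : ‖a.2‖ = max |a.2.1| (max |a.2.2.1| |a.2.2.2|) := rfl
    rw [e1]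
    rcases max_cases |a.2.1| (max |a.2.2.1| |a.2.2.2|) with h5 | h5
    · rw [h5.1, sq_abs]; linarith only [sq_nonneg a.2.2.1, sq_nonneg a.2.2.2]
    · rw [h5.1]
      rcases max_cases |a.2.2.1| |a.2.2.2| with h6 | h6
      · rw [h6.1, sq_abs]; linarith only [sq_nonneg a.2.1, sq_nonneg a.2.2.2]
      · rw [h6.1, sq_abs]; linarith only [sq_nonneg a.2.1, sq_nonneg a.2.2.1]
  rw [h3] at h1 hcon
  have h5 : 0 ≤ ‖a.2‖ := norm_nonneg _
  have h6 : a.1 ^ 2 = |a.1| ^ 2 := (sq_abs _).symm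
  have h7 := abs_nonneg a.1
  linarith [pow_lt_pow_left₀ hcon (by linarith only [h7]) two_ne_zero, sq_nonneg |a.1|]

/-- vectors in narrow cones are timelike -/
lemma timelike_of_cone (h : NearM B) {a : P4} (ha : a ∈ cone (1 / 4)) :
    B a a ≤ -(1 / 2 * a.1 ^ 2) := by
  have h1 := (abs_le.1 (h a a)).2
  rw [mink_self] at h1
  rw [mem_cone] at ha
  obtain ⟨e1, e2, e3⟩ := abs_le_norm3 a
  have h0 : 0 ≤ a.1 := by
    have := norm_nonneg a.2
    linarith only [ha, this]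
  have hn : ‖a‖ = a.1 := by
    rw [norm_P4, abs_of_nonneg h0]
    apply max_eq_left; linarith only [ha, h0]
  rw [hn] at h1
  have f1 : a.2.1 ^ 2 ≤ (1 / 4 * a.1) ^ 2 := sq_le_sq' (by linarith only [ha, (abs_le.1 e1).1]) (by linarith only [ha, (abs_le.1 e1).2])
  have f2 : a.2.2.1 ^ 2 ≤ (1 / 4 * a.1) ^ 2 := sq_le_sq' (by linarith only [ha, (abs_le.1 e2).1]) (by linarith only [ha, (abs_le.1 e2).2])
  have f3 : a.2.2.2 ^ 2 ≤ (1 / 4 * a.1) ^ 2 := sq_le_sq' (by linarith only [ha, (abs_le.1 e3).1]) (by linarith only [ha, (abs_le.1 e3).2])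
  linarith [sq_nonneg a.1]

lemma T_neg (h : NearM B) {a : P4} (ha : B a a ≤ 0) (h0 : 0 < a.1) : B Tv a < 0 := by
  have h1 := (abs_le.1 (h Tv a)).2
  have h2 := h.norm_le_of_causal ha
  have h3 : mink Tv a = -a.1 := by simp only [mink, Tv, one_mul, zero_mul, add_zero]
  rw [h3, norm_Tv] at h1
  rw [abs_of_pos h0] at h2
  linarith

lemma pos_of_T_neg (h : NearM B) {a : P4} (ha : B a a ≤ 0) (hT : B Tv a < 0) : 0 < a.1 := by
  by_contra hcon
  push Not at hcon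
  have h1 := (abs_le.1 (h Tv a)).1
  have h2 := h.norm_le_of_causal ha
  have h3 : mink Tv a = -a.1 := by simp only [mink, Tv, one_mul, zero_mul, add_zero]
  rw [h3, norm_Tv] at h1
  rw [abs_of_nonpos hcon] at h2
  linarith

end NearM

end Vale.Agent.P354
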