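import Vale.Agent.P354.SAlg
import Vale.Agent.P354.Iso

set_option maxSynthPendingDepth 3

open Set Filter Topology

namespace Vale.Agent.P354

/-- the standard box -/
def MB (p0 : P4) (ρ : ℝ) : Set P4 := {x | ‖x - p0‖ < ρ ∧ x.2.1 < 0}

/-- relation between successive points on future causal curves -/
def Rel (C : ℝ) (x y : P4) : Prop :=
  x.2.1 ≤ y.2.1 ∧ x.2.2.1 ≤ y.2.2.1 ∧ ∀ l : ℝ, 0 < l →
    |y.1 - x.1| ≤ C * ((y.2.1 - x.2.1) + l * (y.2.2.1 - x.2.2.1) + (y.2.1 - x.2.1) / l) ∧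
    |y.2.2.2 - x.2.2.2| ≤ C * ((y.2.1 - x.2.1) + l * (y.2.2.1 - x.2.2.1) + (y.2.1 - x.2.1) / l)

lemma Rel.refl (C : ℝ) (x : P4) : Rel C x x := by
  refine ⟨le_rfl, le_rfl, fun l hl => ?_⟩
  simp only [sub_self, abs_zero, mul_zero, add_zero, zero_div, Std.le_refl, and_self]

lemma Rel.trans {C : ℝ} {x y z : P4} (h1 : Rel C x y) (h2 : Rel C y z) : Rel C x z := by
  refine ⟨h1.1.trans h2.1, h1.2.1.trans h2.2.1, fun l hl => ?_⟩
  obtain ⟨a1, a2⟩ := h1.2.2 l hl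
  obtain ⟨b1, b2⟩ := h2.2.2 l hl
  have e : C * ((z.2.1 - x.2.1) + l * (z.2.2.1 - x.2.2.1) + (z.2.1 - x.2.1) / l) =
      C * ((y.2.1 - x.2.1) + l * (y.2.2.1 - x.2.2.1) + (y.2.1 - x.2.1) / l) +
      C * ((z.2.1 - y.2.1) + l * (z.2.2.1 - y.2.2.1) + (z.2.1 - y.2.1) / l) := by ring
  rw [e]
  constructor
  · calc |z.1 - x.1| = |(y.1 - x.1) + (z.1 - y.1)| := by congr 1; ring
      _ ≤ _ := (abs_add_le _ _).trans (by linarith only [a1, b1])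
  · calc |z.2.2.2 - x.2.2.2| = |(y.2.2.2 - x.2.2.2) + (z.2.2.2 - y.2.2.2)| := by congr 1; ring
      _ ≤ _ := (abs_add_le _ _).trans (by linarith only [a2, b2])

lemma norm_sub_le_of_deriv {E : Type*} [NormedAddCommGroup E] [NormedSpace ℝ E] {f f' : ℝ → E}
    {g g' : ℝ → ℝ} {a b : ℝ} (hab : a ≤ b) (hf : ∀ τ ∈ Icc a b, HasDerivAt f (f' τ) τ)
    (hg : ∀ τ ∈ Icc a b, HasDerivAt g (g' τ) τ) (h : ∀ τ ∈ Icc a b, ‖f' τ‖ ≤ g' τ) :
    ‖f b - f a‖ ≤ g b - g a := by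
  have h1 : ∀ τ ∈ Icc a b, HasDerivAt (fun τ => f τ - f a) (f' τ) τ :=
    fun τ hτ => (hf τ hτ).sub_const (f a)
  have h2 : ∀ τ ∈ Icc a b, HasDerivAt (fun τ => g τ - g a) (g' τ) τ :=
    fun τ hτ => (hg τ hτ).sub_const (g a)
  exact image_norm_le_of_norm_deriv_right_le_deriv_boundary'
    (f := fun τ => f τ - f a) (f' := f') (B := fun τ => g τ - g a) (B' := g') (a := a) (b := b)
    (fun τ hτ => (h1 τ hτ).continuousAt.continuousWithinAt)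
    (fun τ hτ => (h1 τ ⟨hτ.1, hτ.2.le⟩).hasDerivWithinAt) (by simp)
    (fun τ hτ => (h2 τ hτ).continuousAt.continuousWithinAt)
    (fun τ hτ => (h2 τ ⟨hτ.1, hτ.2.le⟩).hasDerivWithinAt)
    (fun τ hτ => h τ ⟨hτ.1, hτ.2.le⟩) ⟨hab, le_rfl⟩

/-- a future causal vector on the standard side -/
def FC (K : Coef) (C : ℝ) (x a : P4) : Prop :=
  0 ≤ a.2.1 ∧ 0 ≤ a.2.2.1 ∧ K.h1 x a ^ 2 + K.h2 x a ^ 2 ≤ 2 * C ^ 2 * (a.2.1 * a.2.2.1)

lemma FC.abs_h {K : Coef} {C : ℝ} {x a : P4} (hC : 0 ≤ C) (h : FC K C x a) {l : ℝ} (hl : 0 < l) :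
    |K.h1 x a| ≤ C * (l * a.2.2.1 + a.2.1 / l) ∧ |K.h2 x a| ≤ C * (l * a.2.2.1 + a.2.1 / l) := by
  obtain ⟨h1, h2, h3⟩ := h
  have h4 : 4 * (a.2.1 * a.2.2.1) ≤ (l * a.2.2.1 + a.2.1 / l) ^ 2 := by
    have : l * a.2.2.1 * (a.2.1 / l) = a.2.1 * a.2.2.1 := by field_simp
    linarith only [this, sq_nonneg (l * a.2.2.1 - a.2.1 / l)]
  have h5 : 0 ≤ C * (l * a.2.2.1 + a.2.1 / l) := by positivity
  have h6 : 2 * C ^ 2 * (a.2.1 * a.2.2.1) ≤ (C * (l * a.2.2.1 + a.2.1 / l)) ^ 2 := by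
    have : (C * (l * a.2.2.1 + a.2.1 / l)) ^ 2 = C ^ 2 * (l * a.2.2.1 + a.2.1 / l) ^ 2 := by ring
    rw [this]
    have h7 : C ^ 2 * (4 * (a.2.1 * a.2.2.1)) ≤ C ^ 2 * (l * a.2.2.1 + a.2.1 / l) ^ 2 := by gcongr
    have h8 : 0 ≤ C ^ 2 * (a.2.1 * a.2.2.1) := by positivity
    linarith only [h7, h8]
  constructor
  · apply abs_le_of_sq_le_sq _ h5
    linarith only [h3, h6, sq_nonneg (K.h2 x a)]
  · apply abs_le_of_sq_le_sq _ h5
    linarith only [h3, h6, sq_nonneg (K.h1 x a)]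

lemma rel_of_curve {K : Coef} {C : ℝ} {ν ν' : ℝ → P4} {a b : ℝ} (hab : a ≤ b)
    (hd : ∀ τ ∈ Icc a b, HasDerivAt ν (ν' τ) τ) (hC : ∀ τ ∈ Icc a b, CBd K C (ν τ))
    (hT : ∀ τ ∈ Icc a b, FC K C (ν τ) (ν' τ)) : Rel C (ν a) (ν b) := by
  have hd1 : ∀ τ ∈ Icc a b, HasDerivAt (fun τ => (ν τ).1) (ν' τ).1 τ := fun τ hτ => (hd τ hτ).fst
  have hd2 : ∀ τ ∈ Icc a b, HasDerivAt (fun τ => (ν τ).2.1) (ν' τ).2.1 τ :=
    fun τ hτ => (hd τ hτ).snd.fst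
  have hd3 : ∀ τ ∈ Icc a b, HasDerivAt (fun τ => (ν τ).2.2.1) (ν' τ).2.2.1 τ :=
    fun τ hτ => (hd τ hτ).snd.snd.fst
  have hd4 : ∀ τ ∈ Icc a b, HasDerivAt (fun τ => (ν τ).2.2.2) (ν' τ).2.2.2 τ :=
    fun τ hτ => (hd τ hτ).snd.snd.snd
  have hz : ∀ τ ∈ Icc a b, HasDerivAt (fun _ : ℝ => (0:ℝ)) ((fun _ => (0:ℝ)) τ) τ :=
    fun τ _ => hasDerivAt_const τ 0
  have r1 := norm_sub_le_of_deriv hab hz hd2 (fun τ hτ => by simpa only [norm_zero] using (hT τ hτ).1)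
  have r2 := norm_sub_le_of_deriv hab hz hd3 (fun τ hτ => by simpa only [norm_zero] using (hT τ hτ).2.1)
  simp only [sub_self, norm_zero, sub_nonneg] at r1 r2
  refine ⟨r1, r2, fun l hl => ?_⟩
  have hg : ∀ τ ∈ Icc a b, HasDerivAt (fun τ => C * ((ν τ).2.1 + l * (ν τ).2.2.1 + (ν τ).2.1 / l))
      (C * ((ν' τ).2.1 + l * (ν' τ).2.2.1 + (ν' τ).2.1 / l)) τ := by
    intro τ hτ
    exact (((hd2 τ hτ).add ((hd3 τ hτ).const_mul l)).add ((hd2 τ hτ).div_const l)).const_mul C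
  constructor
  · have := norm_sub_le_of_deriv hab hd1 hg (fun τ hτ => by
      have hc := hC τ hτ
      have ht := hT τ hτ
      have h1 := (ht.abs_h hc.C_pos.le hl).1
      have h2 : (ν' τ).1 = K.h1 (ν τ) (ν' τ) + K.s1 (ν τ) * (ν' τ).2.1 := by
        simp [Coef.h1]
      have h3 : |K.s1 (ν τ) * (ν' τ).2.1| ≤ C * (ν' τ).2.1 := by
        rw [abs_mul, abs_of_nonneg ht.1]
        exact mul_le_mul_of_nonneg_right hc.s1_hi ht.1
      rw [Real.norm_eq_abs, h2]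
      refine (abs_add_le _ _).trans ?_
      linarith)
    rw [Real.norm_eq_abs] at this
    refine this.trans (le_of_eq ?_)
    ring
  · have := norm_sub_le_of_deriv hab hd4 hg (fun τ hτ => by
      have hc := hC τ hτ
      have ht := hT τ hτ
      have h1 := (ht.abs_h hc.C_pos.le hl).2
      have h2 : (ν' τ).2.2.2 = K.h2 (ν τ) (ν' τ) + K.s2 (ν τ) * (ν' τ).2.1 := by
        simp [Coef.h2]
      have h3 : |K.s2 (ν τ) * (ν' τ).2.1| ≤ C * (ν' τ).2.1 := by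
        rw [abs_mul, abs_of_nonneg ht.1]
        exact mul_le_mul_of_nonneg_right hc.s2_hi ht.1
      rw [Real.norm_eq_abs, h2]
      refine (abs_add_le _ _).trans ?_
      linarith only [h1, h3])
    rw [Real.norm_eq_abs] at this
    refine this.trans (le_of_eq ?_)
    ring

/-- Lipschitz bounds between points with the same `v`. -/
structure LipPair (K : Coef) (C : ℝ) (x y : P4) : Prop where
  om : |K.om x - K.om y| ≤ C * ‖x - y‖
  s1 : |K.s1 x - K.s1 y| ≤ C * ‖x - y‖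
  s2 : |K.s2 x - K.s2 y| ≤ C * ‖x - y‖
  g11 : |K.g11 x - K.g11 y| ≤ C * ‖x - y‖
  g12 : |K.g12 x - K.g12 y| ≤ C * ‖x - y‖
  g22 : |K.g22 x - K.g22 y| ≤ C * ‖x - y‖

/-- The hypotheses of the structure lemma. -/
structure SHyp (K : Coef) (G : P4 → P4 →L[ℝ] P4 →L[ℝ] ℝ) (Psi Phi : P4 → P4) (V : Set P4)
    (R0 ρ C : ℝ) (p0 : P4) : Prop where
  iso : Iso K G Psi V
  R0_pos : 0 < R0
  ρ_pos : 0 < ρ
  p0v : p0.2.1 = 0
  V_sub : V ⊆ Metric.ball 0 R0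
  near : ∀ z ∈ Metric.ball (0 : P4) R0, NearM (G z)
  maps : ∀ z ∈ V, Psi z ∈ MB p0 ρ
  beta : ∀ z ∈ V, 0 < (fderiv ℝ Psi z Tv).2.1
  cl : ∀ Kc : Set P4, IsCompact Kc → Kc ⊆ MB p0 ρ →
    ∃ F, IsClosed F ∧ V ∩ Psi ⁻¹' Kc = Metric.ball 0 R0 ∩ F
  one_le : 1 ≤ C
  bd : ∀ x ∈ MB p0 ρ, CBd K C x
  lip : ∀ x ∈ MB p0 ρ, ∀ y ∈ MB p0 ρ, x.2.1 = y.2.1 → LipPair K C x y
  inv : ∀ z ∈ V, Phi (Psi z) = z
  opn : IsOpen (Psi '' V)
  phi : ContDiffOn ℝ 1 Phi (Psi '' V)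

namespace SHyp

variable {K : Coef} {G : P4 → P4 →L[ℝ] P4 →L[ℝ] ℝ} {Psi Phi : P4 → P4} {V : Set P4}
  {R0 ρ C : ℝ} {p0 : P4}

lemma cbd (H : SHyp K G Psi Phi V R0 ρ C p0) {z : P4} (hz : z ∈ V) : CBd K C (Psi z) :=
  H.bd _ (H.maps z hz)

lemma nearV (H : SHyp K G Psi Phi V R0 ρ C p0) {z : P4} (hz : z ∈ V) : NearM (G z) :=
  H.near z (H.V_sub hz)

/-- future timelike vectors have positive `v` component -/
lemma v_pos (H : SHyp K G Psi Phi V R0 ρ C p0) {z : P4} (hz : z ∈ V) {a : P4}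
    (ha : G z a a < 0) (h0 : 0 < a.1) : 0 < (fderiv ℝ Psi z a).2.1 := by
  have hN := H.nearV hz
  have h1 := hN.T_neg ha.le h0
  rw [H.iso.iso z hz] at h1 ha
  have h2 : K.gF (Psi z) (fderiv ℝ Psi z Tv) (fderiv ℝ Psi z Tv) < 0 := by
    rw [← H.iso.iso z hz]
    have : Tv ∈ cone (1 / 4) := by simp only [one_div, Tv, mem_cone, Prod.norm_mk, norm_zero, max_self, mul_one, inv_nonneg, Nat.ofNat_nonneg]
    have := hN.timelike_of_cone this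
    simp only [Tv] at this ⊢
    linarith
  exact (H.cbd hz).v_pos_of_gF_neg h2 ha (H.beta z hz) h1

/-- timelike vectors with positive `v` component are future -/
lemma t_pos (H : SHyp K G Psi Phi V R0 ρ C p0) {z : P4} (hz : z ∈ V) {a : P4}
    (ha : G z a a < 0) (h0 : 0 < (fderiv ℝ Psi z a).2.1) : 0 < a.1 := by
  by_contra hcon
  push Not at hcon
  have hN := H.nearV hz
  have h1 := hN.norm_le_of_causal ha.le
  rcases lt_or_eq_of_le hcon with h2 | h2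
  · have h3 : 0 < (-a).1 := by
      have : (-a).1 = -(a.1) := rfl
      rw [this]; linarith only [h2]
    have h4 : G z (-a) (-a) < 0 := by simpa only [map_neg, neg_apply, neg_neg] using ha
    have h5 := H.v_pos hz h4 h3
    have h6 : (fderiv ℝ Psi z (-a)).2.1 = -((fderiv ℝ Psi z a).2.1) := by
      rw [map_neg]; rfl
    rw [h6] at h5
    linarith
  · rw [h2] at h1
    have h3 : a = 0 := by simpa only [abs_zero, mul_zero, norm_le_zero_iff] using h1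
    rw [h3] at ha
    simp at ha

lemma fc_of_timelike (H : SHyp K G Psi Phi V R0 ρ C p0) {x a : P4} (hx : x ∈ MB p0 ρ)
    (ha : K.gF x a a < 0) (h0 : 0 < a.2.1) : FC K C x a := by
  have hc := H.bd x hx
  refine ⟨h0.le, (hc.u_pos ha h0).le, ?_⟩
  rcases hc.hat_le ha.le with h | h
  · exact h
  · have := hc.uv_pos ha
    linarith

lemma fc_cone (H : SHyp K G Psi Phi V R0 ρ C p0) {z : P4} (hz : z ∈ V) {a : P4}
    (ha : a ∈ cone (1 / 4)) : FC K C (Psi z) (fderiv ℝ Psi z a) := by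
  by_cases h0 : a.1 = 0
  · have : a = 0 := by
      rw [mem_cone, h0, mul_zero] at ha
      have h1 : a.2 = 0 := by simpa only [norm_le_zero_iff] using ha
      exact Prod.ext h0 h1
    rw [this, map_zero]
    simp only [FC, Prod.snd_zero, Prod.fst_zero, Std.le_refl, Coef.h1, mul_zero, sub_self, ne_eq, OfNat.ofNat_ne_zero, not_false_eq_true, zero_pow, Coef.h2, add_zero, and_self]
  · have h1 := (H.nearV hz).timelike_of_cone ha
    have h2 : 0 ≤ a.1 := by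
      rw [mem_cone] at ha
      have := norm_nonneg a.2
      linarith only [ha, this]
    have h3 : 0 < a.1 := lt_of_le_of_ne h2 (Ne.symm h0)
    have h4 : G z a a < 0 := by
      have : 0 < a.1 ^ 2 := by positivity
      linarith only [h1, this]
    have h5 := H.v_pos hz h4 h3
    rw [H.iso.iso z hz] at h4
    exact H.fc_of_timelike (H.maps z hz) h4 h5

end SHyp

/-- the segment from `a` to `b` stays in `V` -/
def InV (V : Set P4) (a b : P4) : Prop := ∀ τ ∈ Icc (0:ℝ) 1, a + τ • (b - a) ∈ V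

lemma InV.left {V : Set P4} {a b : P4} (h : InV V a b) : a ∈ V := by
  simpa using h 0 ⟨le_rfl, zero_le_one⟩

lemma InV.right {V : Set P4} {a b : P4} (h : InV V a b) : b ∈ V := by
  simpa only [one_smul, add_sub_cancel] using h 1 ⟨zero_le_one, le_rfl⟩

lemma hasDerivAt_line (a w : P4) (τ : ℝ) : HasDerivAt (fun τ : ℝ => a + τ • w) w τ := by
  simpa using ((hasDerivAt_id τ).smul_const w).const_add a

namespace SHyp

variable {K : Coef} {G : P4 → P4 →L[ℝ] P4 →L[ℝ] ℝ} {Psi Phi : P4 → P4} {V : Set P4}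
  {R0 ρ C : ℝ} {p0 : P4}

lemma hasDerivAt_seg (H : SHyp K G Psi Phi V R0 ρ C p0) {a w : P4} {τ : ℝ}
    (h : a + τ • w ∈ V) :
    HasDerivAt (fun τ : ℝ => Psi (a + τ • w)) (fderiv ℝ Psi (a + τ • w) w) τ :=
  (H.iso.hasFDerivAt h).comp_hasDerivAt τ (hasDerivAt_line a w τ)

lemma rel_seg (H : SHyp K G Psi Phi V R0 ρ C p0) {a b : P4} (hab : b - a ∈ cone (1 / 4))
    (hin : InV V a b) {τ1 τ2 : ℝ} (h0 : 0 ≤ τ1) (h12 : τ1 ≤ τ2) (h2 : τ2 ≤ 1) :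
    Rel C (Psi (a + τ1 • (b - a))) (Psi (a + τ2 • (b - a))) := by
  have hin' : ∀ τ ∈ Icc τ1 τ2, a + τ • (b - a) ∈ V :=
    fun τ hτ => hin τ ⟨h0.trans hτ.1, hτ.2.trans h2⟩
  exact rel_of_curve (K := K) (ν := fun τ => Psi (a + τ • (b - a)))
    (ν' := fun τ => fderiv ℝ Psi (a + τ • (b - a)) (b - a)) h12
    (fun τ hτ => H.hasDerivAt_seg (hin' τ hτ)) (fun τ hτ => H.cbd (hin' τ hτ))
    (fun τ hτ => H.fc_cone (hin' τ hτ) hab)

lemma rel_ends (H : SHyp K G Psi Phi V R0 ρ C p0) {a b : P4} (hab : b - a ∈ cone (1 / 4))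
    (hin : InV V a b) : Rel C (Psi a) (Psi b) := by
  have := H.rel_seg hab hin le_rfl zero_le_one le_rfl
  simpa using this

end SHyp

end Vale.Agent.P354
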