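import Vale.Agent.P354.SLen

set_option maxSynthPendingDepth 3

open Set Filter Topology

namespace Vale.Agent.P354

lemma cone_nonneg {κ : ℝ} (hκ : 0 < κ) {a : P4} (ha : a ∈ cone κ) : 0 ≤ a.1 := by
  rw [mem_cone] at ha
  have := norm_nonneg a.2
  by_contra h
  push Not at h
  linarith only [ha, this, mul_neg_of_pos_of_neg hκ h]

lemma cone_add {κ : ℝ} {a b : P4} (ha : a ∈ cone κ) (hb : b ∈ cone κ) : a + b ∈ cone κ := by
  rw [mem_cone] at *
  have e1 : (a + b).2 = a.2 + b.2 := rfl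
  have e2 : (a + b).1 = a.1 + b.1 := rfl
  rw [e1, e2]
  refine (norm_add_le _ _).trans ?_
  linarith only [ha, hb]

lemma cone_smul {κ t : ℝ} (ht : 0 ≤ t) {a : P4} (ha : a ∈ cone κ) : t • a ∈ cone κ := by
  rw [mem_cone] at *
  have e1 : (t • a).2 = t • a.2 := rfl
  have e2 : (t • a).1 = t * a.1 := rfl
  rw [e1, e2, norm_smul, Real.norm_eq_abs, abs_of_nonneg ht]
  linarith only [mul_le_mul_of_nonneg_left ha ht]

lemma cone_zero (κ : ℝ) : (0 : P4) ∈ cone κ := by simp only [mem_cone, Prod.snd_zero, norm_zero, Prod.fst_zero, mul_zero, Std.le_refl]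

lemma cone_mono {κ κ' : ℝ} (hκ : 0 < κ) (h : κ ≤ κ') {a : P4} (ha : a ∈ cone κ) : a ∈ cone κ' := by
  have h0 := cone_nonneg hκ ha
  rw [mem_cone] at *
  exact ha.trans (mul_le_mul_of_nonneg_right h h0)

/-- The exit curve in exotic coordinates. -/
structure SCurve (Psi : P4 → P4) (V : Set P4) (p0 : P4) (γ : ℝ → P4) (s0 η1 : ℝ) : Prop where
  s0_lt : s0 < 1
  cont : Continuous γ
  one : γ 1 = 0
  mem : ∀ s ∈ Ico s0 1, γ s ∈ V
  cone : ∀ s ∈ Icc s0 1, ∀ s' ∈ Icc s0 1, s ≤ s' → γ s' - γ s ∈ cone (1 / 8)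
  neg : ∀ s ∈ Ico s0 1, (γ s).1 < 0
  good : ∀ s ∈ Ico s0 1, ‖Psi (γ s) - p0‖ ≤ η1
  tend : Tendsto (fun s => Psi (γ s)) (𝓝[<] 1) (𝓝 p0)

/-- reachable by a broken segment -/
def Reach (V : Set P4) (a b : P4) : Prop :=
  ∃ m, m - a ∈ cone (1 / 4) ∧ b - m ∈ cone (1 / 4) ∧ InV V a m ∧ InV V m b

lemma inV_const {V : Set P4} {a : P4} (ha : a ∈ V) : InV V a a := fun τ _ => by simpa using ha

namespace SHyp

variable {K : Coef} {G : P4 → P4 →L[ℝ] P4 →L[ℝ] ℝ} {Psi Phi : P4 → P4} {V : Set P4}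
  {R0 ρ C : ℝ} {p0 : P4} {γ : ℝ → P4} {s0 η1 η : ℝ}

lemma η_pos (hc : SCurve Psi V p0 γ s0 η1) : 0 ≤ η1 :=
  (norm_nonneg _).trans (hc.good s0 ⟨le_rfl, hc.s0_lt⟩)

lemma neg_cone (hc : SCurve Psi V p0 γ s0 η1) {s : ℝ} (hs : s ∈ Ico s0 1) :
    -γ s ∈ cone (1 / 8) := by
  have := hc.cone s ⟨hs.1, hs.2.le⟩ 1 ⟨hc.s0_lt.le, le_rfl⟩ hs.2.le
  rwa [hc.one, zero_sub] at this

lemma reach_rel (H : SHyp K G Psi Phi V R0 ρ C p0) {a b : P4} (h : Reach V a b) :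
    Rel C (Psi a) (Psi b) := by
  obtain ⟨m, h1, h2, h3, h4⟩ := h
  exact (H.rel_ends h1 h3).trans (H.rel_ends h2 h4)

/-- segments between points of the curve -/
lemma curve_seg (H : SHyp K G Psi Phi V R0 ρ C p0) (hc : SCurve Psi V p0 γ s0 η1)
    (hη : 5 * C * η1 < ρ) {s s' : ℝ} (hs : s0 ≤ s) (hss : s ≤ s') (hs' : s' < 1) :
    InV V (γ s) (γ s') := by
  have hmem : ∀ t ∈ Icc s s', γ t ∈ V := fun t ht => hc.mem t ⟨hs.trans ht.1, ht.2.trans_lt hs'⟩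
  have hcont : ContinuousOn (fun t => (Psi (γ t)).2.1) (Icc s s') := by
    have h1 : ContinuousOn (fun t => Psi (γ t)) (Icc s s') :=
      H.iso.smooth.continuousOn.comp hc.cont.continuousOn hmem
    exact (continuous_fst.comp continuous_snd).comp_continuousOn h1
  obtain ⟨t, ht, hmax⟩ := isCompact_Icc.exists_isMaxOn (nonempty_Icc.2 hss) hcont
  have hneg : (Psi (γ t)).2.1 < 0 := (H.maps _ (hmem t ht)).2
  have hpar : ∀ l ∈ Icc (0:ℝ) 1, s + l * (s' - s) ∈ Icc s s' := by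
    intro l hl
    have h1 : 0 ≤ l * (s' - s) := mul_nonneg hl.1 (by linarith only [hss])
    have h2 : l * (s' - s) ≤ 1 * (s' - s) := mul_le_mul_of_nonneg_right hl.2 (by linarith only [hss])
    constructor <;> linarith only [h1, h2]
  have hsI : s ∈ Ico s0 1 := ⟨hs, hss.trans_lt hs'⟩
  have key := H.push (η := η1) (vs := (Psi (γ t)).2.1) hη hneg (a := fun _ => γ s)
    (m := fun _ => γ s) (b := fun l => γ (s + l * (s' - s))) continuous_const continuous_const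
    (hc.cont.comp (by fun_prop)) (fun l _ => by simpa only [one_div, sub_self] using cone_zero (1/4))
    (fun l hl => by
      have h3 := hpar l hl
      exact cone_mono (by norm_num) (by norm_num) (hc.cone s ⟨hs, hsI.2.le⟩ _
        ⟨hs.trans h3.1, h3.2.trans hs'.le⟩ h3.1))
    (fun l _ => H.V_sub (hc.mem s hsI)) (fun l _ => ⟨hc.mem s hsI, hc.good s hsI⟩)
    (fun l hl => by
      have h3 := hpar l hl
      exact ⟨hmem _ h3, hc.good _ ⟨hs.trans h3.1, h3.2.trans_lt hs'⟩, hmax h3⟩)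
    (by simpa using inV_const (hc.mem s hsI))
  have := (key 1 ⟨zero_le_one, le_rfl⟩).2
  simpa using this

lemma curve_u_le (H : SHyp K G Psi Phi V R0 ρ C p0) (hc : SCurve Psi V p0 γ s0 η1)
    (hη : 5 * C * η1 < ρ) {s : ℝ} (hs : s ∈ Ico s0 1) : (Psi (γ s)).2.2.1 ≤ p0.2.2.1 := by
  have h1 : Tendsto (fun s => (Psi (γ s)).2.2.1) (𝓝[<] 1) (𝓝 p0.2.2.1) :=
    ((continuous_fst.comp (continuous_snd.comp continuous_snd)).tendsto p0).comp hc.tend
  refine ge_of_tendsto h1 ?_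
  filter_upwards [Ico_mem_nhdsLT hs.2] with s' hs'
  have h2 := H.rel_ends (cone_mono (by norm_num1) (by norm_num)
    (hc.cone s ⟨hs.1, hs.2.le⟩ s' ⟨hs.1.trans hs'.1, hs'.2.le⟩ hs'.1))
    (H.curve_seg hc hη hs.1 hs'.1 hs'.2)
  exact h2.2.1

lemma zero_notMem (H : SHyp K G Psi Phi V R0 ρ C p0) (hc : SCurve Psi V p0 γ s0 η1) :
    (0 : P4) ∉ V := by
  intro h0
  have h1 : ContinuousAt Psi 0 := (H.iso.contDiffAt h0).continuousAt
  have h2 : Tendsto γ (𝓝[<] 1) (𝓝 0) := by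
    have := hc.cont.tendsto 1
    rw [hc.one] at this
    exact this.mono_left nhdsWithin_le_nhds
  have h3 : Tendsto (fun s => Psi (γ s)) (𝓝[<] 1) (𝓝 (Psi 0)) := h1.tendsto.comp h2
  have h4 := tendsto_nhds_unique h3 hc.tend
  have h5 := (H.maps 0 h0).2
  rw [h4, H.p0v] at h5
  exact lt_irrefl _ h5

/-- moving the break point -/
lemma reach_move (H : SHyp K G Psi Phi V R0 ρ C p0) (hc : SCurve Psi V p0 γ s0 η1)
    (hη : 5 * C * η < ρ) (hη1 : η1 ≤ η) {s : ℝ} (hs : s ∈ Ico s0 1) {b : P4}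
    (hr : Reach V (γ s) b) (hb : ‖Psi b - p0‖ ≤ η) {q : P4} (hq : q ∈ Metric.ball (0 : P4) R0)
    (hq1 : q - γ s ∈ cone (1 / 4)) (hq2 : b - q ∈ cone (1 / 4)) :
    InV V (γ s) q ∧ InV V q b := by
  obtain ⟨m, h1, h2, h3, h4⟩ := hr
  have hbV := h4.right
  have key := H.push (η := η) (vs := (Psi b).2.1) hη (H.maps b hbV).2 (a := fun _ => γ s)
    (m := fun l => m + l • (q - m)) (b := fun _ => b) continuous_const (by fun_prop)
    continuous_const
    (fun l hl => by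
      have : m + l • (q - m) - γ s = (1 - l) • (m - γ s) + l • (q - γ s) := by module
      rw [this]
      exact cone_add (cone_smul (by linarith only [hl.2]) h1) (cone_smul hl.1 hq1))
    (fun l hl => by
      have : b - (m + l • (q - m)) = (1 - l) • (b - m) + l • (b - q) := by module
      rw [this]
      exact cone_add (cone_smul (by linarith only [hl.2]) h2) (cone_smul hl.1 hq2))
    (fun l hl => ball_seg (H.V_sub h3.right) hq hl)
    (fun l _ => ⟨hc.mem s hs, (hc.good s hs).trans hη1⟩)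
    (fun l _ => ⟨hbV, hb, le_rfl⟩) (by simpa using ⟨h3, h4⟩)
  have := key 1 ⟨zero_le_one, le_rfl⟩
  simpa using this

/-- reachable good points are not in the future cone of the exit point -/
lemma not_future (H : SHyp K G Psi Phi V R0 ρ C p0) (hc : SCurve Psi V p0 γ s0 η1)
    (hη : 5 * C * η < ρ) (hη1 : η1 ≤ η) {s : ℝ} (hs : s ∈ Ico s0 1) {b : P4}
    (hr : Reach V (γ s) b) (hb : ‖Psi b - p0‖ ≤ η) : b.1 < 4 * ‖b.2‖ := by
  by_contra hcon
  push Not at hcon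
  have hb' : b - 0 ∈ cone (1 / 4) := by
    rw [sub_zero, mem_cone]; linarith
  have h0 : (0 : P4) - γ s ∈ cone (1 / 4) := by
    rw [zero_sub]; exact cone_mono (by norm_num) (by norm_num) (neg_cone hc hs)
  have := (H.reach_move hc hη hη1 hs hr hb (q := 0) (by simpa only [Metric.mem_ball, dist_self] using H.R0_pos) h0 hb').1.right
  exact H.zero_notMem hc this

/-- the past region -/
lemma past (H : SHyp K G Psi Phi V R0 ρ C p0) (hc : SCurve Psi V p0 γ s0 η1)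
    (hη : 5 * C * η1 < ρ) {s : ℝ} (hs : s ∈ Ico s0 1) {q : P4} (hq1 : q - γ s ∈ cone (1 / 4))
    (hq2 : 4 * ‖q.2‖ < -q.1) :
    InV V (γ s) q ∧ ∀ᶠ s' in 𝓝[<] 1, InV V q (γ s') ∧ γ s' - q ∈ cone (1 / 4) := by
  have htend : Tendsto γ (𝓝[<] 1) (𝓝 0) := by
    have := hc.cont.tendsto 1
    rw [hc.one] at this
    exact this.mono_left nhdsWithin_le_nhds
  have hev : ∀ᶠ s' in 𝓝[<] (1:ℝ), γ s' - q ∈ cone (1 / 4) := by
    have h1 : Tendsto (fun s' => ‖(γ s' - q).2‖ - 1 / 4 * (γ s' - q).1) (𝓝[<] 1)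
        (𝓝 (‖(0 - q).2‖ - 1 / 4 * (0 - q).1)) := by
      have hcont : Continuous (fun z : P4 => ‖(z - q).2‖ - 1 / 4 * (z - q).1) := by fun_prop
      exact (hcont.tendsto 0).comp htend
    have h2 : ‖(0 - q).2‖ - 1 / 4 * (0 - q).1 < 0 := by
      have e1 : (0 - q).2 = -q.2 := by simp only [zero_sub, Prod.snd_neg]
      have e2 : (0 - q).1 = -q.1 := by simp only [zero_sub, Prod.fst_neg]
      rw [e1, e2, norm_neg]; linarith
    filter_upwards [h1.eventually (gt_mem_nhds h2)] with s' hs'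
    rw [mem_cone]
    have : ‖(γ s' - q).2‖ - 1 / 4 * (γ s' - q).1 < 0 := hs'
    linarith only [hs']
  have hqR : q ∈ Metric.ball (0 : P4) R0 := by
    have h1 := cone_nonneg (by norm_num) hq1
    have e1 : (q - γ s).1 = q.1 - (γ s).1 := rfl
    rw [e1] at h1
    have h2 := H.V_sub (hc.mem s hs)
    rw [mem_ball_zero_iff] at h2 ⊢
    have h3 := (norm_fst_le (γ s)).trans_lt h2
    rw [Real.norm_eq_abs, abs_of_neg (hc.neg s hs)] at h3
    have h4 := norm_nonneg q.2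
    rw [norm_P4]
    apply max_lt
    · rw [abs_of_nonpos (by linarith only [hq2, h4])]; linarith
    · linarith
  have key : ∀ s' ∈ Ico s 1, γ s' - q ∈ cone (1 / 4) → InV V (γ s) q ∧ InV V q (γ s') := by
    intro s' hs' hcn
    have hs'I : s' ∈ Ico s0 1 := ⟨hs.1.trans hs'.1, hs'.2⟩
    have hr : Reach V (γ s) (γ s') := ⟨γ s, by simpa only [one_div, sub_self] using cone_zero (1 / 4),
      cone_mono (by norm_num) (by norm_num) (hc.cone s ⟨hs.1, hs.2.le⟩ s' ⟨hs'I.1, hs'.2.le⟩ hs'.1),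
      inV_const (hc.mem s hs), H.curve_seg hc hη hs.1 hs'.1 hs'.2⟩
    exact H.reach_move hc hη le_rfl hs hr (hc.good s' hs'I) hqR hq1 hcn
  have hev2 : ∀ᶠ s' in 𝓝[<] (1:ℝ), s' ∈ Ico s 1 := Ico_mem_nhdsLT hs.2
  constructor
  · obtain ⟨s', h1, h2⟩ := (hev.and hev2).exists
    exact (key s' h2 h1).1
  · filter_upwards [hev, hev2] with s' h1 h2
    exact ⟨(key s' h2 h1).2, h1⟩

lemma past_u (H : SHyp K G Psi Phi V R0 ρ C p0) (hc : SCurve Psi V p0 γ s0 η1)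
    (hη : 5 * C * η1 < ρ) {s : ℝ} (hs : s ∈ Ico s0 1) {q : P4} (hq1 : q - γ s ∈ cone (1 / 4))
    (hq2 : 4 * ‖q.2‖ < -q.1) : (Psi q).2.2.1 ≤ p0.2.2.1 := by
  obtain ⟨-, h2⟩ := H.past hc hη hs hq1 hq2
  obtain ⟨s', h3, h4⟩ := (h2.and (Ico_mem_nhdsLT hs.2)).exists
  have h5 := H.rel_ends h3.2 h3.1
  exact h5.2.1.trans (H.curve_u_le hc hη ⟨hs.1.trans h4.1, h4.2⟩)

/-- reachable points with bounded `u` are good -/
lemma reach_good (H : SHyp K G Psi Phi V R0 ρ C p0) (hc : SCurve Psi V p0 γ s0 η1)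
    {s : ℝ} (hs : s ∈ Ico s0 1) {b : P4} (hr : Reach V (γ s) b)
    (hb : (Psi b).2.2.1 ≤ p0.2.2.1 + η1) : ‖Psi b - p0‖ ≤ 5 * C * η1 := by
  have hbV : b ∈ V := by
    obtain ⟨m, -, -, -, h⟩ := hr
    exact h.right
  have hrel := H.reach_rel hr
  have hv := (H.maps b hbV).2
  have hη0 : 0 ≤ η1 := η_pos hc
  have hC := H.one_le
  obtain ⟨x1, x2, x3, x4⟩ := norm_P4_le.1 (hc.good s hs)
  simp only [Prod.fst_sub, Prod.snd_sub, H.p0v, sub_zero] at x1 x2 x3 x4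
  obtain ⟨a1, a2, a3⟩ := hrel
  obtain ⟨c1, c2⟩ := a3 1 one_pos
  have hCη : η1 ≤ C * η1 := le_mul_of_one_le_left (by linarith only [hη0]) (by linarith only [hC])
  have hV : (Psi b).2.1 - (Psi (γ s)).2.1 ≤ η1 := by linarith only [hv, (abs_le.1 x2).1]
  have hU : (Psi b).2.2.1 - (Psi (γ s)).2.2.1 ≤ 2 * η1 := by linarith only [hb, (abs_le.1 x3).1]
  have hS : C * ((Psi b).2.1 - (Psi (γ s)).2.1 + 1 * ((Psi b).2.2.1 - (Psi (γ s)).2.2.1) +
      ((Psi b).2.1 - (Psi (γ s)).2.1) / 1) ≤ C * (4 * η1) := by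
    gcongr
    rw [div_one]; linarith only [hV, hU]
  refine norm_P4_le.2 ⟨?_, ?_, ?_, ?_⟩
  · simp only [Prod.fst_sub]
    have : (Psi b).1 - p0.1 = ((Psi b).1 - (Psi (γ s)).1) + ((Psi (γ s)).1 - p0.1) := by ring
    rw [this]
    refine (abs_add_le _ _).trans ?_
    linarith only [x1, c1, hCη, hS]
  · simp only [Prod.fst_sub, Prod.snd_sub, H.p0v, sub_zero]
    rw [abs_le]
    constructor <;> linarith only [hv, a1, hCη, (abs_le.1 x2).1, hη0]
  · simp only [Prod.fst_sub, Prod.snd_sub]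
    rw [abs_le]
    constructor <;> linarith only [hη0, a2, hCη, (abs_le.1 x3).1, hb]
  · simp only [Prod.snd_sub]
    have : (Psi b).2.2.2 - p0.2.2.2 = ((Psi b).2.2.2 - (Psi (γ s)).2.2.2) +
      ((Psi (γ s)).2.2.2 - p0.2.2.2) := by ring
    rw [this]
    refine (abs_add_le _ _).trans ?_
    linarith only [x4, c2, hCη, hS]

/-- near the exit point, good points have `v` close to zero -/
lemma small_v (H : SHyp K G Psi Phi V R0 ρ C p0) (hc : SCurve Psi V p0 γ s0 η1) (hη : η < ρ)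
    {vs : ℝ} (hvs : vs < 0) :
    ∃ ε > 0, ∀ z ∈ V, ‖z‖ < ε → ‖Psi z - p0‖ ≤ η → vs < (Psi z).2.1 := by
  obtain ⟨F, hF, hVF⟩ := H.cl _ (KB_compact p0 η vs) (KB_sub hη hvs)
  have h0 : (0 : P4) ∉ F := by
    intro h
    have : (0 : P4) ∈ V ∩ Psi ⁻¹' KB p0 η vs := by
      rw [hVF]; exact ⟨by simpa only [Metric.mem_ball, dist_self] using H.R0_pos, h⟩
    exact H.zero_notMem hc this.1
  obtain ⟨ε, hε, hball⟩ := Metric.isOpen_iff.1 hF.isOpen_compl 0 h0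
  refine ⟨ε, hε, fun z hz hzε hzg => ?_⟩
  by_contra hcon
  push Not at hcon
  have h1 : z ∈ V ∩ Psi ⁻¹' KB p0 η vs := ⟨hz, hzg, hcon⟩
  rw [hVF] at h1
  exact hball (by simpa only [Metric.mem_ball, dist_zero_right] using hzε) h1.2

end SHyp

end Vale.Agent.P354
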