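import Vale.Agent.P354.SPush

set_option maxSynthPendingDepth 3

open Set Filter Topology

namespace Vale.Agent.P354

lemma MB_convex {p0 : P4} {ρ : ℝ} {x y : P4} (hx : x ∈ MB p0 ρ) (hy : y ∈ MB p0 ρ) {l : ℝ}
    (hl : l ∈ Icc (0:ℝ) 1) : x + l • (y - x) ∈ MB p0 ρ := by
  constructor
  · have h1 : x ∈ Metric.ball p0 ρ := by simpa [dist_eq_norm] using hx.1
    have h2 : y ∈ Metric.ball p0 ρ := by simpa [dist_eq_norm] using hy.1
    have h3 := (convex_ball p0 ρ).add_smul_sub_mem h1 h2 hl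
    simpa only [gt_iff_lt, Metric.mem_ball, dist_eq_norm] using h3
  · have h1 : (x + l • (y - x)).2.1 = (1 - l) * x.2.1 + l * y.2.1 := by
      simp only [Prod.snd_add, Prod.smul_snd, Prod.snd_sub, Prod.fst_add, Prod.smul_fst, Prod.fst_sub, smul_eq_mul]; ring
    rw [h1]
    have hx2 := hx.2
    have hy2 := hy.2
    obtain ⟨l0, l1⟩ := hl
    rcases lt_or_eq_of_le l1 with h | h
    · have : (1 - l) * x.2.1 < 0 := mul_neg_of_pos_of_neg (by linarith) hx2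
      have : l * y.2.1 ≤ 0 := mul_nonpos_of_nonneg_of_nonpos l0 hy2.le
      linarith
    · rw [h]; linarith

/-- The quadratic form of the sphere part is bounded. -/
lemma CBd.Q_le {K : Coef} {C : ℝ} {x : P4} (h : CBd K C x) (p q : ℝ) :
    Qg K x p q ≤ 2 * C * (p ^ 2 + q ^ 2) := by
  have h1 := (abs_le.1 h.g11_hi).2
  have h2 := (abs_le.1 h.g22_hi).2
  have h3 := h.g12_hi
  have h4 : K.g12 x * (p * q) ≤ C * ((p ^ 2 + q ^ 2) / 2) := by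
    have e1 : K.g12 x * (p * q) ≤ |K.g12 x| * |p * q| := by
      rw [← abs_mul]; exact le_abs_self _
    have e2 : |p * q| ≤ (p ^ 2 + q ^ 2) / 2 := by
      rw [abs_le]; constructor <;> linarith only [sq_nonneg (p + q), sq_nonneg (p - q)]
    calc _ ≤ |K.g12 x| * |p * q| := e1
      _ ≤ C * ((p ^ 2 + q ^ 2) / 2) := by
        apply mul_le_mul h3 e2 (abs_nonneg _) h.C_pos.le
  have h5 : K.g11 x * p ^ 2 ≤ C * p ^ 2 := by gcongr
  have h6 : K.g22 x * q ^ 2 ≤ C * q ^ 2 := by gcongr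
  unfold Qg
  linarith only [h4, h5, h6]

lemma powC {C : ℝ} (hC : 1 ≤ C) : C ≤ C ^ 2 ∧ C ^ 2 ≤ C ^ 3 ∧ C ^ 3 ≤ C ^ 4 ∧ C ^ 4 ≤ C ^ 5 :=
  ⟨le_self_pow₀ hC two_ne_zero, pow_le_pow_right₀ hC (by norm_num), pow_le_pow_right₀ hC (by norm_num),
    pow_le_pow_right₀ hC (by norm_num)⟩

lemma mul_le_half_sq (p S : ℝ) : p * S ≤ (p ^ 2 + S ^ 2) / 2 := by
  linarith [sq_nonneg (p - S)]

/-- error estimate, abstract real version -/
lemma err_est {C e lam D1 D2 g11 g12 g22 k11 k12 k22 X1 X2 Y1 Y2 p U : ℝ} (hC : 1 ≤ C)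
    (he : 0 ≤ e) (he1 : e ≤ 1) (hp : 0 ≤ p)
    (hg11 : |g11| ≤ C) (hg12 : |g12| ≤ C) (hg22 : |g22| ≤ C)
    (h11 : |g11 - k11| ≤ C * e) (h12 : |g12 - k12| ≤ C * e) (h22 : |g22 - k22| ≤ C * e)
    (hX1 : |X1 - Y1| ≤ C * e * p) (hX2 : |X2 - Y2| ≤ C * e * p)
    (hY : Y1 ^ 2 + Y2 ^ 2 ≤ 2 * C ^ 2 * (p * U)) (hU : 0 ≤ U) (hlam : |lam| ≤ C * e)
    (hD1 : D1 = g11 * X1 ^ 2 + 2 * g12 * X1 * X2 + g22 * X2 ^ 2)
    (hD2 : D2 = k11 * Y1 ^ 2 + 2 * k12 * Y1 * Y2 + k22 * Y2 ^ 2) :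
    |2 * lam * (p * U) - (D1 - D2)| ≤ e * (14 * C ^ 4) * (p * U + p ^ 2) := by
  have hC0 : 0 < C := by linarith only [hC]
  have hpU : 0 ≤ p * U := mul_nonneg hp hU
  have t0 : |2 * lam * (p * U)| ≤ 2 * (C * e) * (p * U) := by
    rw [abs_mul, abs_mul, abs_of_nonneg hpU, abs_of_pos (by norm_num : (0:ℝ) < 2)]
    gcongr
  set S := |Y1| + |Y2| with hS
  have hS0 : 0 ≤ S := by positivity
  have hS2 : S ^ 2 ≤ 4 * C ^ 2 * (p * U) := by
    have : S ^ 2 ≤ 2 * (Y1 ^ 2 + Y2 ^ 2) := by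
      have e1 := sq_abs Y1
      have e2 := sq_abs Y2
      linarith only [e1, e2, sq_nonneg (|Y1| - |Y2|)]
    linarith only [hY, this]
  have a1 : |Y1| ≤ S := by rw [hS]; linarith only [abs_nonneg Y2]
  have a2 : |Y2| ≤ S := by rw [hS]; linarith only [abs_nonneg Y1]
  -- second difference
  have t2 : |(g11 - k11) * Y1 ^ 2 + 2 * (g12 - k12) * (Y1 * Y2) + (g22 - k22) * Y2 ^ 2| ≤
      C * e * S ^ 2 := by
    have b1 : |(g11 - k11) * Y1 ^ 2| ≤ C * e * |Y1| ^ 2 := by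
      rw [abs_mul, abs_pow]; gcongr
    have b2 : |(g22 - k22) * Y2 ^ 2| ≤ C * e * |Y2| ^ 2 := by
      rw [abs_mul, abs_pow]; gcongr
    have b3 : |2 * (g12 - k12) * (Y1 * Y2)| ≤ 2 * (C * e) * (|Y1| * |Y2|) := by
      rw [abs_mul, abs_mul, abs_mul, abs_of_pos (by norm_num : (0:ℝ) < 2)]; gcongr
    refine (abs_add_three _ _ _).trans ?_
    rw [hS]
    linarith only [b1, b2, b3]
  -- first difference
  have c1 : |X1 ^ 2 - Y1 ^ 2| ≤ C * e * p * (2 * |Y1| + C * e * p) := by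
    have : X1 ^ 2 - Y1 ^ 2 = (X1 - Y1) * (X1 + Y1) := by ring
    rw [this, abs_mul]
    have h3 : |X1 + Y1| ≤ 2 * |Y1| + C * e * p := by
      have : X1 + Y1 = (X1 - Y1) + 2 * Y1 := by ring
      rw [this]
      refine (abs_add_le _ _).trans ?_
      rw [abs_mul, abs_of_pos (by norm_num : (0:ℝ) < 2)]
      linarith only [hX1]
    gcongr
  have c2 : |X2 ^ 2 - Y2 ^ 2| ≤ C * e * p * (2 * |Y2| + C * e * p) := by
    have : X2 ^ 2 - Y2 ^ 2 = (X2 - Y2) * (X2 + Y2) := by ring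
    rw [this, abs_mul]
    have h3 : |X2 + Y2| ≤ 2 * |Y2| + C * e * p := by
      have : X2 + Y2 = (X2 - Y2) + 2 * Y2 := by ring
      rw [this]
      refine (abs_add_le _ _).trans ?_
      rw [abs_mul, abs_of_pos (by norm_num : (0:ℝ) < 2)]
      linarith only [hX2]
    gcongr
  have c3 : |X1 * X2 - Y1 * Y2| ≤ C * e * p * (|Y1| + |Y2| + C * e * p) := by
    have : X1 * X2 - Y1 * Y2 = (X1 - Y1) * (X2 - Y2) + (X1 - Y1) * Y2 + Y1 * (X2 - Y2) := by ring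
    rw [this]
    refine (abs_add_three _ _ _).trans ?_
    rw [abs_mul, abs_mul, abs_mul]
    have e1 : |X1 - Y1| * |X2 - Y2| ≤ (C * e * p) * (C * e * p) := by gcongr
    have e2 : |X1 - Y1| * |Y2| ≤ (C * e * p) * |Y2| := by gcongr
    have e3 : |Y1| * |X2 - Y2| ≤ |Y1| * (C * e * p) := by gcongr
    linarith only [e1, e2, e3]
  have t1 : |g11 * (X1 ^ 2 - Y1 ^ 2) + 2 * g12 * (X1 * X2 - Y1 * Y2) + g22 * (X2 ^ 2 - Y2 ^ 2)| ≤
      4 * C * (C * e * p) * (S + C * e * p) := by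
    have d1 : |g11 * (X1 ^ 2 - Y1 ^ 2)| ≤ C * (C * e * p * (2 * |Y1| + C * e * p)) := by
      rw [abs_mul]; gcongr
    have d2 : |g22 * (X2 ^ 2 - Y2 ^ 2)| ≤ C * (C * e * p * (2 * |Y2| + C * e * p)) := by
      rw [abs_mul]; gcongr
    have d3 : |2 * g12 * (X1 * X2 - Y1 * Y2)| ≤ 2 * C * (C * e * p * (|Y1| + |Y2| + C * e * p)) := by
      rw [abs_mul, abs_mul, abs_of_pos (by norm_num : (0:ℝ) < 2)]; gcongr
    refine (abs_add_three _ _ _).trans ?_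
    rw [hS]
    refine (add_le_add (add_le_add d1 d3) d2).trans (le_of_eq ?_)
    ring
  have hsplit : D1 - D2 = (g11 * (X1 ^ 2 - Y1 ^ 2) + 2 * g12 * (X1 * X2 - Y1 * Y2)
      + g22 * (X2 ^ 2 - Y2 ^ 2)) + ((g11 - k11) * Y1 ^ 2 + 2 * (g12 - k12) * (Y1 * Y2)
      + (g22 - k22) * Y2 ^ 2) := by
    rw [hD1, hD2]; ring
  rw [hsplit]
  have hfin : |2 * lam * (p * U) - ((g11 * (X1 ^ 2 - Y1 ^ 2) + 2 * g12 * (X1 * X2 - Y1 * Y2)
      + g22 * (X2 ^ 2 - Y2 ^ 2)) + ((g11 - k11) * Y1 ^ 2 + 2 * (g12 - k12) * (Y1 * Y2)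
      + (g22 - k22) * Y2 ^ 2))| ≤ 2 * (C * e) * (p * U) + (4 * C * (C * e * p) * (S + C * e * p)
      + C * e * S ^ 2) := by
    refine (abs_sub _ _).trans ?_
    exact add_le_add t0 ((abs_add_le _ _).trans (add_le_add t1 t2))
  refine hfin.trans ?_
  have f1 : p * S ≤ (p ^ 2 + S ^ 2) / 2 := mul_le_half_sq p S
  have f2 : C * e * p * (S + C * e * p) ≤ C * e * ((p ^ 2 + S ^ 2) / 2 + C * p ^ 2) := by
    have : C * e * p * (S + C * e * p) = C * e * (p * S + C * e * p ^ 2) := by ring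
    rw [this]
    have h7 : C * e * p ^ 2 ≤ C * 1 * p ^ 2 := by gcongr
    refine mul_le_mul_of_nonneg_left ?_ (by positivity)
    linarith only [f1, h7]
  obtain ⟨hCC, hC3, hC4, -⟩ := powC hC
  calc 2 * (C * e) * (p * U) + (4 * C * (C * e * p) * (S + C * e * p) + C * e * S ^ 2)
      = 2 * (C * e) * (p * U) + (4 * C * (C * e * p * (S + C * e * p)) + C * e * S ^ 2) := by ring
    _ ≤ 2 * (C * e) * (p * U) + (4 * C * (C * e * ((p ^ 2 + S ^ 2) / 2 + C * p ^ 2))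
          + C * e * S ^ 2) := by gcongr
    _ = e * (2 * C * (p * U) + 2 * C ^ 2 * p ^ 2 + 4 * C ^ 3 * p ^ 2 + (2 * C ^ 2 + C) * S ^ 2) := by
          ring
    _ ≤ e * (2 * C * (p * U) + 2 * C ^ 2 * p ^ 2 + 4 * C ^ 3 * p ^ 2 +
          (2 * C ^ 2 + C) * (4 * C ^ 2 * (p * U))) := by gcongr
    _ = e * ((2 * C + 8 * C ^ 4 + 4 * C ^ 3) * (p * U) + (2 * C ^ 2 + 4 * C ^ 3) * p ^ 2) := by ring
    _ ≤ e * ((14 * C ^ 4) * (p * U) + (14 * C ^ 4) * p ^ 2) := by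
        have g1 : 2 * C + 8 * C ^ 4 + 4 * C ^ 3 ≤ 14 * C ^ 4 := by linarith only [hCC, hC3, hC4]
        have g0 : 0 ≤ C ^ 4 := by positivity
        have g2 : 2 * C ^ 2 + 4 * C ^ 3 ≤ 14 * C ^ 4 := by linarith only [hC, hCC, hC3, hC4]
        gcongr
    _ = _ := by ring

end Vale.Agent.P354
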