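import Vale.Agent.P354.SCvx

set_option maxSynthPendingDepth 3

open Set Filter Topology

namespace Vale.Agent.P354

lemma cvx_real {C l d omx oml D1 D2 QY QXY p U Ub : ℝ} (hC : 1 ≤ C) (hl0 : 0 ≤ l) (hl1 : l ≤ 1)
    (hp : 0 < p) (hU : 0 ≤ U) (hd : 0 ≤ d)
    (h1 : |(2 * oml * (p * U) - D1) - (2 * omx * (p * U) - D2)| ≤
      l * d * (14 * C ^ 4) * (p * U + p ^ 2))
    (h2 : 0 < 2 * omx * (p * U) - D2) (h3 : D1 ≤ 2 * QXY + 2 * QY)
    (h4 : QY ≤ p * Ub / (4 * C)) (h5 : 1 / C ≤ oml) (h6 : p ≤ Ub) (h7 : 28 * C ^ 5 * d ≤ 1) :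
    0 < (1 - l) * (2 * oml * (p * U) - D1) + l * (2 * oml * (p * Ub) - QY)
      + l * (1 - l) * QXY := by
  have hC0 : 0 < C := by linarith only [hC]
  have hpU : 0 ≤ p * U := by positivity
  have hpUb : 0 < p * Ub := by have : 0 < Ub := by linarith only [hp, h6]
                               positivity
  set E : ℝ := 14 * C ^ 4 * (p * U + p ^ 2) * d with hE
  have hE0 : 0 ≤ E := by positivity
  have hE1 : E ≤ (p * U + p * Ub) / (2 * C) := by
    have e1 : p ^ 2 ≤ p * Ub := by rw [sq]; gcongr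
    have e2 : 14 * C ^ 4 * d ≤ 1 / (2 * C) := by
      rw [le_div_iff₀ (by positivity)]
      calc 14 * C ^ 4 * d * (2 * C) = 28 * C ^ 5 * d := by ring
        _ ≤ 1 := h7
    calc E = (14 * C ^ 4 * d) * (p * U + p ^ 2) := by rw [hE]; ring
      _ ≤ (1 / (2 * C)) * (p * U + p * Ub) := by gcongr
      _ = _ := by ring
  have herr : |(2 * oml * (p * U) - D1) - (2 * omx * (p * U) - D2)| ≤ l * E := by
    refine h1.trans (le_of_eq ?_)
    rw [hE]; ring
  set Fa := 2 * omx * (p * U) - D2 with hFa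
  set Ga := 2 * oml * (p * U) - D1 with hGa
  set Fb := 2 * oml * (p * Ub) - QY with hFb
  obtain ⟨r1, r2⟩ := abs_le.1 herr
  have hlE : l * E ≤ E := mul_le_of_le_one_left (by first | linarith only [hE0] | positivity) (by linarith only [hl1])
  have k1 : Ga ≥ Fa - l * E := by linarith only [r1]
  have k2 : 0 ≤ Fa + QXY + QY - oml * (p * U) + E / 2 := by
    have : Ga - E ≤ Fa := by linarith only [r2, hlE]
    linarith only [h3, h2, r2, hlE]
  have homU : (p * U) / C ≤ oml * (p * U) := by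
    have : (p * U) / C = 1 / C * (p * U) := by ring
    rw [this]; gcongr
  have homUb : (p * Ub) / C ≤ oml * (p * Ub) := by
    have : (p * Ub) / C = 1 / C * (p * Ub) := by ring
    rw [this]; gcongr
  have q1 : p * Ub / (4 * C) = (p * Ub / C) / 4 := by field_simp
  have q2 : (p * U + p * Ub) / (2 * C) = (p * U / C) / 2 + (p * Ub / C) / 2 := by field_simp
  have q3 : 0 < p * Ub / C := by positivity
  have q4 : 0 ≤ p * U / C := by positivity
  rw [q1] at h4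
  rw [q2] at hE1
  have kFb : 0 < Fb := by linarith only [h4, homUb, q3]
  have kB : 0 < oml * (p * U) - 3 / 2 * E - QY + Fb := by linarith only [h4, hE1, homU, homUb, q3, q4]
  have hm : 0 ≤ l * (1 - l) := mul_nonneg hl0 (by linarith only [hl1])
  have step : (1 - l) * (Fa - l * E) + l * Fb + l * (1 - l) * QXY ≥
      (1 - l) ^ 2 * Fa + l ^ 2 * Fb := by
    have id1 : (1 - l) * (Fa - l * E) + l * Fb + l * (1 - l) * QXY =
      (1 - l) ^ 2 * Fa + l ^ 2 * Fb + l * (1 - l) * (oml * (p * U) - 3 / 2 * E - QY + Fb)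
        + l * (1 - l) * (Fa + QXY + QY - oml * (p * U) + E / 2) := by ring
    rw [id1]
    have m1 := mul_nonneg hm kB.le
    have m2 := mul_nonneg hm k2
    linarith only [m1, m2]
  have step2 : (1 - l) * Ga ≥ (1 - l) * (Fa - l * E) :=
    mul_le_mul_of_nonneg_left k1 (by linarith only [hl1])
  have step3 : 0 < (1 - l) ^ 2 * Fa + l ^ 2 * Fb := by
    rcases eq_or_lt_of_le hl1 with h | h
    · rw [h]; simp [kFb]
    · have : 0 < (1 - l) ^ 2 * Fa := by
        have : 0 < 1 - l := by linarith only [h]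
        positivity
      have : 0 ≤ l ^ 2 * Fb := by positivity
      linarith
  linarith only [step, step2, step3]

lemma Qg_cvx {K : Coef} {C : ℝ} {x : P4} (h : CBd K C x) (p q p' q' : ℝ) :
    Qg K x p q ≤ 2 * Qg K x (p - p') (q - q') + 2 * Qg K x p' q' := by
  have h1 := h.Q_nonneg (p - 2 * p') (q - 2 * q')
  have h2 : 2 * Qg K x (p - p') (q - q') + 2 * Qg K x p' q' - Qg K x p q =
      Qg K x (p - 2 * p') (q - 2 * q') := by
    unfold Qg; ring
  linarith only [h1, h2]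

lemma cvx_neg {K : Coef} {C : ℝ} {x xl a b : P4} {l d : ℝ} (hx : CBd K C x) (hxl : CBd K C xl)
    (hlip : LipPair K C xl x) (hd : ‖xl - x‖ ≤ l * d) (hl : l ∈ Icc (0:ℝ) 1) (hd0 : 0 ≤ d)
    (hd1 : 28 * C ^ 5 * d ≤ 1) (hab : a.2.1 = b.2.1) (hp : 0 < a.2.1)
    (ha : K.gF x a a < 0) (hub : b.2.1 ≤ b.2.2.1)
    (hb : K.h1 xl b ^ 2 + K.h2 xl b ^ 2 ≤ 1 / (8 * C ^ 2) * (b.2.1 * b.2.2.1)) :
    K.gF xl (a + l • (b - a)) (a + l • (b - a)) < 0 := by
  have hC := hx.one_le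
  have hC0 := hx.C_pos
  have hau := hx.u_pos ha hp
  obtain ⟨hl0, hl1⟩ := hl
  have hd2 : d ≤ 1 := by
    have : 1 ≤ 28 * C ^ 5 := by
      have : 1 ≤ C ^ 5 := one_le_pow₀ hC
      linarith only [this]
    linarith only [hd1, mul_le_mul_of_nonneg_right this hd0]
  have hld : l * d ≤ 1 := mul_le_one₀ hl1 hd0 hd2
  have hld0 : 0 ≤ l * d := by positivity
  have hhat : K.h1 x a ^ 2 + K.h2 x a ^ 2 ≤ 2 * C ^ 2 * (a.2.1 * a.2.2.1) := by
    rcases hx.hat_le ha.le with h | h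
    · exact h
    · have := hx.uv_pos ha
      linarith only [h, this]
  have hn : C * ‖xl - x‖ ≤ C * (l * d) := by gcongr
  have hX : ∀ s s' t : ℝ, |s - s'| ≤ C * ‖xl - x‖ →
      |(t - s * a.2.1) - (t - s' * a.2.1)| ≤ C * (l * d) * a.2.1 := by
    intro s s' t h
    have : (t - s * a.2.1) - (t - s' * a.2.1) = -((s - s') * a.2.1) := by ring
    rw [this, abs_neg, abs_mul, abs_of_pos hp]
    exact mul_le_mul_of_nonneg_right (h.trans hn) hp.le
  have herr := err_est (C := C) (e := l * d) (lam := K.om xl - K.om x)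
    (D1 := Qg K xl (K.h1 xl a) (K.h2 xl a)) (D2 := Qg K x (K.h1 x a) (K.h2 x a))
    (g11 := K.g11 xl) (g12 := K.g12 xl) (g22 := K.g22 xl)
    (k11 := K.g11 x) (k12 := K.g12 x) (k22 := K.g22 x) (X1 := K.h1 xl a) (X2 := K.h2 xl a)
    (Y1 := K.h1 x a) (Y2 := K.h2 x a) (p := a.2.1) (U := a.2.2.1) hC hld0 hld hp.le
    hxl.g11_hi hxl.g12_hi hxl.g22_hi (hlip.g11.trans hn) (hlip.g12.trans hn) (hlip.g22.trans hn)
    (hX _ _ _ hlip.s1) (hX _ _ _ hlip.s2) hhat hau.le (hlip.om.trans hn) rfl rfl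
  have h2 : 0 < 2 * K.om x * (a.2.1 * a.2.2.1) - Qg K x (K.h1 x a) (K.h2 x a) := by
    rw [gF_diag] at ha; linarith only [ha]
  have h1 : |(2 * K.om xl * (a.2.1 * a.2.2.1) - Qg K xl (K.h1 xl a) (K.h2 xl a)) -
      (2 * K.om x * (a.2.1 * a.2.2.1) - Qg K x (K.h1 x a) (K.h2 x a))| ≤
      l * d * (14 * C ^ 4) * (a.2.1 * a.2.2.1 + a.2.1 ^ 2) := by
    refine le_trans (le_of_eq ?_) herr
    congr 1; ring
  have h3 := Qg_cvx hxl (K.h1 xl a) (K.h2 xl a) (K.h1 xl b) (K.h2 xl b)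
  have h4 : Qg K xl (K.h1 xl b) (K.h2 xl b) ≤ a.2.1 * b.2.2.1 / (4 * C) := by
    refine (hxl.Q_le _ _).trans ?_
    rw [hab]
    calc 2 * C * (K.h1 xl b ^ 2 + K.h2 xl b ^ 2) ≤ 2 * C * (1 / (8 * C ^ 2) * (b.2.1 * b.2.2.1)) := by
          gcongr
      _ = b.2.1 * b.2.2.1 / (4 * C) := by field_simp; ring
  have key := cvx_real (C := C) (l := l) (d := d) (omx := K.om x) (oml := K.om xl) hC hl0 hl1 hp
    hau.le hd0 h1 h2 h3 h4 hxl.om_lo (by rw [hab]; exact hub) hd1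
  have hfin : K.gF xl (a + l • (b - a)) (a + l • (b - a)) =
      -((1 - l) * (2 * K.om xl * (a.2.1 * a.2.2.1) - Qg K xl (K.h1 xl a) (K.h2 xl a))
      + l * (2 * K.om xl * (a.2.1 * b.2.2.1) - Qg K xl (K.h1 xl b) (K.h2 xl b))
      + l * (1 - l) * Qg K xl (K.h1 xl a - K.h1 xl b) (K.h2 xl a - K.h2 xl b)) := by
    simp only [Coef.gF, Qg, Coef.h1, Coef.h2, Prod.fst_add, Prod.snd_add, Prod.fst_sub,
      Prod.snd_sub, Prod.smul_fst, Prod.smul_snd, smul_eq_mul, hab]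
    ring
  rw [hfin]
  linarith only [key]

/-- the comparison vector is timelike, with a bound -/
lemma cmp_neg {K : Coef} {C : ℝ} {x b : P4} (hx : CBd K C x) (hp : 0 < b.2.1)
    (hub : b.2.1 ≤ b.2.2.1)
    (hb : K.h1 x b ^ 2 + K.h2 x b ^ 2 ≤ 1 / (8 * C ^ 2) * (b.2.1 * b.2.2.1)) :
    K.gF x b b ≤ -((b.2.1 * b.2.2.1) / C) := by
  have hC := hx.one_le
  have hC0 := hx.C_pos
  have h4 : Qg K x (K.h1 x b) (K.h2 x b) ≤ b.2.1 * b.2.2.1 / (4 * C) := by
    refine (hx.Q_le _ _).trans ?_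
    calc 2 * C * (K.h1 x b ^ 2 + K.h2 x b ^ 2) ≤ 2 * C * (1 / (8 * C ^ 2) * (b.2.1 * b.2.2.1)) := by
          gcongr
      _ = b.2.1 * b.2.2.1 / (4 * C) := by field_simp; ring
  have hpos : 0 < b.2.1 * b.2.2.1 := by
    have : 0 < b.2.2.1 := by linarith only [hp, hub]
    positivity
  have h5 : (b.2.1 * b.2.2.1) / C ≤ K.om x * (b.2.1 * b.2.2.1) := by
    have : (b.2.1 * b.2.2.1) / C = 1 / C * (b.2.1 * b.2.2.1) := by ring
    rw [this]
    exact mul_le_mul_of_nonneg_right hx.om_lo hpos.le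
  have q1 : b.2.1 * b.2.2.1 / (4 * C) = (b.2.1 * b.2.2.1 / C) / 4 := by field_simp
  have q3 : 0 < b.2.1 * b.2.2.1 / C := by positivity
  rw [q1] at h4
  rw [gF_diag]
  linarith only [h4, h5, q3]

end Vale.Agent.P354
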