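import Vale.Agent.P354.SCurve

set_option maxSynthPendingDepth 3

open Set Filter Topology

namespace Vale.Agent.P354

/-- numerical part of the exit lemma, first half -/
lemma exit_theta {C δ k w τ v1 l2 dV dU dV2 dU2 X Y : ℝ} (hC : 1 ≤ C) (hδ : 0 < δ) (hk : 0 < k)
    (hw : 0 < w) (hτ : 0 < τ) (hw2 : w ^ 2 = τ * δ) (hτk : τ * k ≤ w)
    (hdV : dV ≤ τ) (hdU : dU ≤ 2 * δ / k ^ 2) (hl2 : l2 = w / (2 * k * δ))
    (hdV2 : dV2 ≤ v1) (hv1 : v1 * (1 + 1 / l2) ≤ w / (2 * k)) (hdU2 : dU2 ≤ δ)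
    (hX : |X| ≤ C * (dV + (k * w / δ) * dU + dV / (k * w / δ)))
    (hY : |Y| ≤ C * (dV2 + l2 * dU2 + dV2 / l2)) : |X + Y| ≤ 5 * C * w / k := by
  have hl : 0 < k * w / δ := by positivity
  have hl2p : 0 < l2 := by rw [hl2]; positivity
  have hC0 : 0 < C := by linarith only [hC]
  have a1 : dV ≤ w / k := by
    rw [le_div_iff₀ hk]
    exact (mul_le_mul_of_nonneg_right hdV hk.le).trans hτk
  have a2 : (k * w / δ) * dU ≤ 2 * w / k := by
    calc (k * w / δ) * dU ≤ (k * w / δ) * (2 * δ / k ^ 2) := by gcongr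
      _ = 2 * w / k := by field_simp
  have a3 : dV / (k * w / δ) ≤ w / k := by
    calc dV / (k * w / δ) ≤ τ / (k * w / δ) := by gcongr
      _ = (τ * δ) / (k * w) := by field_simp
      _ = w / k := by rw [← hw2]; field_simp
  have a4 : |X| ≤ C * (4 * (w / k)) := by
    refine hX.trans ?_
    have : 2 * w / k = 2 * (w / k) := by ring
    refine mul_le_mul_of_nonneg_left ?_ hC0.le
    linarith only [a1, a2, a3, this]
  have b1 : dV2 + dV2 / l2 ≤ w / (2 * k) := by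
    calc dV2 + dV2 / l2 ≤ v1 + v1 / l2 := by gcongr
      _ = v1 * (1 + 1 / l2) := by ring
      _ ≤ _ := hv1
  have b2 : l2 * dU2 ≤ w / (2 * k) := by
    calc l2 * dU2 ≤ l2 * δ := by gcongr
      _ = w / (2 * k) := by rw [hl2]; field_simp
  have b3 : |Y| ≤ C * (w / k) := by
    refine hY.trans ?_
    have : w / (2 * k) = (w / k) / 2 := by field_simp
    refine mul_le_mul_of_nonneg_left ?_ hC0.le
    linarith only [b1, b2, this]
  calc |X + Y| ≤ |X| + |Y| := abs_add_le _ _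
    _ ≤ C * (4 * (w / k)) + C * (w / k) := add_le_add a4 b3
    _ = 5 * C * w / k := by ring

/-- numerical part of the exit lemma, second half -/
lemma exit_num {C δ k w τ dv du X1 X2 T : ℝ} (hC : 1 ≤ C) (hk : k = 50 * C ^ 2)
    (hw : 0 < w) (hw2 : w ^ 2 = τ * δ) (hτ : 0 < τ) (hδ : 0 < δ) (hτk : τ * k ≤ w)
    (hdv : τ / 2 ≤ dv) (hdv2 : dv ≤ τ) (hdu : δ ≤ du)
    (hX1 : |X1| ≤ 5 * C * w / k) (hX2 : |X2| ≤ 5 * C * w / k) :
    (2 * (X1 ^ 2 + X2 ^ 2) + 4 * C ^ 2 * dv ^ 2 ≤ 1 / (8 * C ^ 2) * (dv * du)) ∧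
    (|T| ≤ 4 * C * w / k → ¬ (dv * du ≤ 2 * C * T ^ 2)) := by
  have hC0 : 0 < C := by linarith only [hC]
  have hkp : 0 < k := by rw [hk]; positivity
  have hdvdu : w ^ 2 / 2 ≤ dv * du := by
    calc w ^ 2 / 2 = (τ / 2) * δ := by rw [hw2]; ring
      _ ≤ dv * du := by gcongr; linarith only [hτ, hdv]
  have hdv0 : 0 ≤ dv := by linarith only [hτ, hdv]
  constructor
  · have e1 : X1 ^ 2 ≤ (5 * C * w / k) ^ 2 := by
      rw [← sq_abs X1]; gcongr
    have e2 : X2 ^ 2 ≤ (5 * C * w / k) ^ 2 := by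
      rw [← sq_abs X2]; gcongr
    have e3 : dv ^ 2 ≤ (w / k) ^ 2 := by
      have : dv ≤ w / k := by
        rw [le_div_iff₀ hkp]
        exact (mul_le_mul_of_nonneg_right hdv2 hkp.le).trans hτk
      gcongr
    have e4 : 4 * C ^ 2 * dv ^ 2 ≤ 4 * C ^ 2 * (w / k) ^ 2 := by gcongr
    have e5 : 1 / (8 * C ^ 2) * (w ^ 2 / 2) ≤ 1 / (8 * C ^ 2) * (dv * du) := by gcongr
    have e6 : 2 * ((5 * C * w / k) ^ 2 + (5 * C * w / k) ^ 2) + 4 * C ^ 2 * (w / k) ^ 2 =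
        104 * C ^ 2 * w ^ 2 / k ^ 2 := by field_simp; ring
    have e7 : 104 * C ^ 2 * w ^ 2 / k ^ 2 ≤ 1 / (8 * C ^ 2) * (w ^ 2 / 2) := by
      rw [hk]
      have h1 : 104 * C ^ 2 * w ^ 2 / (50 * C ^ 2) ^ 2 = (104 / 2500) * (w ^ 2 / C ^ 2) := by
        field_simp; ring
      have h2 : 1 / (8 * C ^ 2) * (w ^ 2 / 2) = (1 / 16) * (w ^ 2 / C ^ 2) := by
        field_simp; ring
      rw [h1, h2]
      have : 0 ≤ w ^ 2 / C ^ 2 := by positivity
      linarith only [this]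
    linarith
  · intro hT hcon
    have e1 : T ^ 2 ≤ (4 * C * w / k) ^ 2 := by
      rw [← sq_abs T]; gcongr
    have e2 : 2 * C * T ^ 2 ≤ 2 * C * (4 * C * w / k) ^ 2 := by gcongr
    have e3 : 2 * C * (4 * C * w / k) ^ 2 = (32 / 2500) * (w ^ 2 / C) := by
      rw [hk]; field_simp; ring
    have e4 : w ^ 2 / C ≤ w ^ 2 := div_le_self (by positivity) hC
    have e5 : 0 < w ^ 2 := by positivity
    have e6 : 0 < w ^ 2 / C := by positivity
    linarith only [hdvdu, hcon, e2, e3, e4, e5]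

lemma vline_sub (t t' : ℝ) (x : ℝ × ℝ × ℝ) : ((t, x) : P4) - (t', x) = (t - t', 0) := by
  simp

lemma vline_cone {t t' : ℝ} (h : t' ≤ t) (x : ℝ × ℝ × ℝ) :
    ((t, x) : P4) - (t', x) ∈ cone (1 / 4) := by
  rw [vline_sub, mem_cone]
  simp only [norm_zero]
  linarith

lemma vline_inV {V : Set P4} {t t' : ℝ} (h : t' ≤ t) {x : ℝ × ℝ × ℝ}
    (hV : ∀ s ∈ Icc t' t, ((s, x) : P4) ∈ V) : InV V (t', x) (t, x) := by
  intro τ hτ
  have : ((t', x) : P4) + τ • ((t, x) - (t', x)) = (t' + τ * (t - t'), x) := by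
    rw [vline_sub]
    ext <;> simp only [Prod.smul_mk, smul_eq_mul, smul_zero, Prod.mk_add_mk, add_zero]
  rw [this]
  have h1 : 0 ≤ τ * (t - t') := mul_nonneg hτ.1 (by linarith)
  have h2 : τ * (t - t') ≤ 1 * (t - t') := mul_le_mul_of_nonneg_right hτ.2 (by linarith)
  exact hV _ ⟨by linarith, by linarith⟩

namespace SHyp

variable {K : Coef} {G : P4 → P4 →L[ℝ] P4 →L[ℝ] ℝ} {Psi Phi : P4 → P4} {V : Set P4}
  {R0 ρ C : ℝ} {p0 : P4} {γ : ℝ → P4} {s0 η1 η : ℝ}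

/-- the exotic time to the exit point is bounded by the null coordinates -/
lemma ts_bound (H : SHyp K G Psi Phi V R0 ρ C p0) (hc : SCurve Psi V p0 γ s0 η1)
    (hη : 5 * C * η1 < ρ) {s : ℝ} (hs : s ∈ Ico s0 1) {l : ℝ} (hl : 0 < l) :
    -(γ s).1 ≤ C * (l * (p0.2.2.1 - (Psi (γ s)).2.2.1) + (-(Psi (γ s)).2.1) / l) := by
  have hC := H.one_le
  have htend : Tendsto (fun s' => (γ s').1 - (γ s).1) (𝓝[<] 1) (𝓝 (-(γ s).1)) := by
    have h1 := hc.cont.tendsto 1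
    rw [hc.one] at h1
    have h2 : Tendsto (fun s' => (γ s').1) (𝓝 1) (𝓝 ((0 : P4).1)) :=
      (continuous_fst.tendsto _).comp h1
    have h3 := (h2.mono_left (nhdsWithin_le_nhds (s := Iio 1))).sub_const (γ s).1
    simpa only [Prod.fst_zero, zero_sub] using h3
  refine le_of_tendsto htend ?_
  filter_upwards [Ico_mem_nhdsLT hs.2] with s' hs'
  have hs'I : s' ∈ Ico s0 1 := ⟨hs.1.trans hs'.1, hs'.2⟩
  have h1 := H.len_upper (cone_mono (by norm_num) (by norm_num)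
    (hc.cone s ⟨hs.1, hs.2.le⟩ s' ⟨hs'I.1, hs'.2.le⟩ hs'.1))
    (H.curve_seg hc hη hs.1 hs'.1 hs'.2) hl
  have h2 := H.curve_u_le hc hη hs'I
  have h3 := (H.maps _ (hc.mem s' hs'I)).2
  refine h1.trans ?_
  gcongr
  linarith only [h3]

/-- core of the regular exit lemma -/
lemma exit_core (H : SHyp K G Psi Phi V R0 ρ C p0) (hc : SCurve Psi V p0 γ s0 η1)
    (hη1 : 0 < η1) (hη : 5 * C * (5 * C * η1) < ρ) (hη2 : 280 * C ^ 6 * (5 * C * η1) ≤ 1)
    {k w : ℝ} (hk : k = 50 * C ^ 2) {s1 s : ℝ} (hs1 : s1 ∈ Ico s0 1) (hs : s ∈ Ico s1 1)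
    (hsR : ‖γ s‖ ≤ R0 / 8) (hμ : p0.2.2.1 - (Psi (γ s)).2.2.1 ≤ η1 / k ^ 2)
    (hτ : -(Psi (γ s)).2.1 ≤ η1 / k ^ 2) (hw : 0 < w) (hw2 : w ^ 2 = -(Psi (γ s)).2.1 * η1)
    {r' v1 : ℝ} (hr1 : r' ≤ -(γ s).1 / 16) (hr2 : 4 * r' ≤ R0 / 8)
    (hv1 : v1 * (1 + 1 / (w / (2 * k * η1))) ≤ w / (2 * k)) (hv2 : v1 ≤ -(Psi (γ s)).2.1 / 2)
    {b q : P4} (hb : Reach V (γ s1) b) (hq : Reach V (γ s1) q)
    (hbu : (Psi b).2.2.1 = p0.2.2.1 + η1 / k ^ 2) (hqu : (Psi q).2.2.1 = p0.2.2.1 + η1)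
    (hbq : InV V b q) (hbqc : q - b ∈ cone (1 / 4)) (hbr : ‖b.2‖ ≤ r') (hqr : ‖q.2‖ ≤ r')
    (hb4 : -(4 * r') ≤ b.1) (hq4 : |q.1| ≤ 4 * r') (hbv : -v1 ≤ (Psi b).2.1) : False := by
  have hC := H.one_le
  have hC0 : 0 < C := by linarith only [hC]
  have hkp : 0 < k := by rw [hk]; positivity
  have hk1 : 1 ≤ k ^ 2 := by
    have h1 : 1 ≤ k := by
      rw [hk]
      have : 1 ≤ C ^ 2 := one_le_pow₀ hC
      linarith only [this]
    exact one_le_pow₀ h1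
  have hsI : s ∈ Ico s0 1 := ⟨hs1.1.trans hs.1, hs.2⟩
  have hη1' : 5 * C * η1 < ρ := by
    have : 5 * C * η1 ≤ 5 * C * (5 * C * η1) := by
      have h1 : 1 * (5 * C * η1) ≤ (5 * C) * (5 * C * η1) := by
        gcongr; linarith only [hC]
      linarith only [h1]
    linarith only [hη, this]
  have hη1le : η1 ≤ 5 * C * η1 := le_mul_of_one_le_left (by linarith only [hη1]) (by linarith only [hC])
  have hdel : η1 / k ^ 2 ≤ η1 := div_le_self hη1.le hk1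
  set τ := -(Psi (γ s)).2.1 with hτdef
  have hτpos : 0 < τ := by
    have := (H.maps _ (hc.mem s hsI)).2
    rw [hτdef]; linarith only [this]
  have hτk : τ * k ≤ w := by
    apply le_of_sq_le_sq _ hw.le
    rw [hw2, mul_pow]
    have : τ * k ^ 2 ≤ η1 := by
      rw [le_div_iff₀ (by positivity)] at hτ; exact hτ
    linarith only [mul_le_mul_of_nonneg_left this hτpos.le]
  -- |t_s|
  have hts : -(γ s).1 ≤ 2 * C * w / k := by
    have h1 := H.ts_bound hc hη1' hsI (l := k * w / η1) (by positivity)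
    refine h1.trans ?_
    have e1 : (k * w / η1) * (p0.2.2.1 - (Psi (γ s)).2.2.1) ≤ w / k := by
      calc (k * w / η1) * (p0.2.2.1 - (Psi (γ s)).2.2.1) ≤ (k * w / η1) * (η1 / k ^ 2) := by gcongr
        _ = w / k := by field_simp
    have e2 : τ / (k * w / η1) ≤ w / k := by
      refine le_of_eq ?_
      calc τ / (k * w / η1) = (τ * η1) / (k * w) := by field_simp
        _ = w / k := by rw [← hw2]; field_simp
    calc _ ≤ C * (w / k + w / k) := by gcongr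
      _ = 2 * C * w / k := by ring
  -- membership
  have hneg := hc.neg s hsI
  have hnc := neg_cone hc hsI
  rw [mem_cone] at hnc
  have hn1 : (-γ s).2 = -(γ s).2 := rfl
  have hn2 : (-γ s).1 = -(γ s).1 := rfl
  rw [hn1, hn2, norm_neg] at hnc
  have hsub : ∀ z : P4, ‖z.2‖ ≤ r' → -(4 * r') ≤ z.1 → z - γ s ∈ cone (1 / 4) := by
    intro z h1 h2
    rw [mem_cone]
    have e1 : (z - γ s).2 = z.2 - (γ s).2 := rfl
    have e2 : (z - γ s).1 = z.1 - (γ s).1 := rfl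
    rw [e1, e2]
    refine (norm_sub_le _ _).trans ?_
    linarith only [hr1, hnc, h1, h2]
  have hgb : ‖Psi b - p0‖ ≤ 5 * C * η1 := H.reach_good hc hs1 hb (by rw [hbu]; linarith only [hdel])
  have hgq : ‖Psi q - p0‖ ≤ 5 * C * η1 := H.reach_good hc hs1 hq (by rw [hqu])
  have hsball : γ s ∈ Metric.ball (0 : P4) R0 := H.V_sub (hc.mem s hsI)
  have hs1s : γ s - γ s1 ∈ cone (1 / 4) := cone_mono (by norm_num) (by norm_num)
    (hc.cone s1 ⟨hs1.1, hs1.2.le⟩ s ⟨hsI.1, hs.2.le⟩ hs.1)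
  have hqc : q - γ s ∈ cone (1 / 4) := hsub q hqr (abs_le.1 hq4).1
  have hbc : b - γ s ∈ cone (1 / 4) := hsub b hbr hb4
  have hinq : InV V (γ s) q :=
    (H.reach_move hc hη hη1le hs1 hq hgq hsball hs1s hqc).2
  have hinb : InV V (γ s) b :=
    (H.reach_move hc hη hη1le hs1 hb hgb hsball hs1s hbc).2
  have r1 := H.rel_ends hbc hinb
  have r2 := H.rel_ends hbqc hbq
  have hbneg := (H.maps b hinb.right).2
  have hqneg := (H.maps q hinq.right).2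
  have hl2p : 0 < w / (2 * k * η1) := by positivity
  obtain ⟨x1, x2⟩ := r1.2.2 (k * w / η1) (by positivity)
  obtain ⟨y1, y2⟩ := r2.2.2 (w / (2 * k * η1)) hl2p
  have hdV : (Psi b).2.1 - (Psi (γ s)).2.1 ≤ τ := by rw [hτdef]; linarith only [hbneg]
  have hdU : (Psi b).2.2.1 - (Psi (γ s)).2.2.1 ≤ 2 * η1 / k ^ 2 := by
    rw [hbu]
    have : 2 * η1 / k ^ 2 = η1 / k ^ 2 + η1 / k ^ 2 := by ring
    linarith only [hμ, this]
  have hdV2 : (Psi q).2.1 - (Psi b).2.1 ≤ v1 := by linarith only [hbv, hqneg]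
  have hdU2 : (Psi q).2.2.1 - (Psi b).2.2.1 ≤ η1 := by
    rw [hbu, hqu]
    have : 0 ≤ η1 / k ^ 2 := by positivity
    linarith only [hbv, hτ, hv2, hbneg]
  have T1 := exit_theta (X := (Psi b).1 - (Psi (γ s)).1) (Y := (Psi q).1 - (Psi b).1) hC hη1 hkp hw
    hτpos hw2 hτk hdV hdU rfl hdV2 hv1 hdU2 x1 y1
  have T2 := exit_theta (X := (Psi b).2.2.2 - (Psi (γ s)).2.2.2)
    (Y := (Psi q).2.2.2 - (Psi b).2.2.2) hC hη1 hkp hw
    hτpos hw2 hτk hdV hdU rfl hdV2 hv1 hdU2 x2 y2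
  have s1' : (Psi b).1 - (Psi (γ s)).1 + ((Psi q).1 - (Psi b).1) =
    (Psi q).1 - (Psi (γ s)).1 := by ring
  have s2' : (Psi b).2.2.2 - (Psi (γ s)).2.2.2 + ((Psi q).2.2.2 - (Psi b).2.2.2) =
    (Psi q).2.2.2 - (Psi (γ s)).2.2.2 := by ring
  rw [s1'] at T1
  rw [s2'] at T2
  have hdv : τ / 2 ≤ (Psi q).2.1 - (Psi (γ s)).2.1 := by
    have := r2.1
    rw [hτdef] at hv2 ⊢
    linarith only [hbv, hv2, this]
  have hdv2 : (Psi q).2.1 - (Psi (γ s)).2.1 ≤ τ := by rw [hτdef]; linarith only [hqneg]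
  have hule := H.curve_u_le hc hη1' hsI
  have hdu : η1 ≤ (Psi q).2.2.1 - (Psi (γ s)).2.2.1 := by rw [hqu]; linarith only [hule]
  obtain ⟨N1, N2⟩ := exit_num (T := q.1 - (γ s).1) hC hk hw hw2 hτpos hη1 hτk hdv hdv2 hdu T1 T2
  have hqs : |q.1 - (γ s).1| ≤ 4 * C * w / k := by
    obtain ⟨q1, q2⟩ := abs_le.1 hq4
    have h1 : q.1 - (γ s).1 ≤ 2 * (2 * C * w / k) := by linarith only [hr1, hts, hneg, q2]
    have h2 : 2 * (2 * C * w / k) = 4 * C * w / k := by ring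
    rw [h2] at h1
    rw [abs_le]
    constructor
    · have h0 : 0 ≤ q.1 - (γ s).1 := by linarith only [hr1, hneg, q1]
      linarith only [hr1, hts, hneg, q1, h2]
    · exact h1
  refine N2 hqs ?_
  refine H.len_lower hqc hinq hsR ?_ hη hη2 ((hc.good s hsI).trans hη1le) hgq ?_ ?_ N1
  · rw [norm_P4]
    apply max_le
    · exact hq4.trans hr2
    · have : 0 ≤ r' := (norm_nonneg _).trans hqr
      linarith only [hr2, hqr, this]
  · have e : (q - γ s).1 = q.1 - (γ s).1 := rfl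
    rw [e]
    have := (abs_le.1 hq4).1
    linarith only [hr1, hneg, this]
  · linarith only [hqu, hdel, hτ, hqneg, hule]

end SHyp

end Vale.Agent.P354
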