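import Vale.Agent.P354.SLift

set_option maxSynthPendingDepth 3

open Set Filter Topology

namespace Vale.Agent.P354

lemma KB_convex {p0 : P4} {r vs : ℝ} {x y : P4} (hx : x ∈ KB p0 r vs) (hy : y ∈ KB p0 r vs)
    {l : ℝ} (hl : l ∈ Icc (0:ℝ) 1) : x + l • (y - x) ∈ KB p0 r vs := by
  constructor
  · have h1 : x ∈ Metric.closedBall p0 r := by simpa only [Metric.mem_closedBall, dist_eq_norm] using hx.1
    have h2 : y ∈ Metric.closedBall p0 r := by simpa only [Metric.mem_closedBall, dist_eq_norm] using hy.1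
    have h3 := (convex_closedBall p0 r).add_smul_sub_mem h1 h2 hl
    simpa only [ge_iff_le, Metric.mem_closedBall, dist_eq_norm] using h3
  · have h1 : (x + l • (y - x)).2.1 = (1 - l) * x.2.1 + l * y.2.1 := by
      simp only [Prod.snd_add, Prod.smul_snd, Prod.snd_sub, Prod.fst_add, Prod.smul_fst, Prod.fst_sub, smul_eq_mul]; ring
    rw [h1]
    obtain ⟨l0, l1⟩ := hl
    have e1 : (1 - l) * x.2.1 ≤ (1 - l) * vs := mul_le_mul_of_nonneg_left hx.2 (by linarith)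
    have e2 : l * y.2.1 ≤ l * vs := mul_le_mul_of_nonneg_left hy.2 l0
    linarith

lemma sub_mul_sq_le {X s d C : ℝ} (hs : |s| ≤ C) :
    (X - s * d) ^ 2 ≤ 2 * X ^ 2 + 2 * (C ^ 2 * d ^ 2) := by
  have s1 : s ^ 2 ≤ C ^ 2 := by
    have h := abs_le.1 hs
    exact sq_le_sq' h.1 h.2
  have : s ^ 2 * d ^ 2 ≤ C ^ 2 * d ^ 2 := by gcongr
  linarith only [this, sq_nonneg (X + s * d)]

lemma hat_small {K : Coef} {C : ℝ} {z A B : P4} (hc : CBd K C z) (w : ℝ)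
    (hΘ : 2 * ((B.1 - A.1) ^ 2 + (B.2.2.2 - A.2.2.2) ^ 2)
      + 4 * C ^ 2 * (B.2.1 - A.2.1) ^ 2 ≤
      1 / (8 * C ^ 2) * ((B.2.1 - A.2.1) * (B.2.2.1 - A.2.2.1))) :
    K.h1 z (w • (B - A)) ^ 2 + K.h2 z (w • (B - A)) ^ 2 ≤
      1 / (8 * C ^ 2) * ((w • (B - A)).2.1 * (w • (B - A)).2.2.1) := by
  have e1 : K.h1 z (w • (B - A)) = w * ((B.1 - A.1) - K.s1 z * (B.2.1 - A.2.1)) := by
    simp only [Coef.h1, Prod.smul_fst, Prod.smul_snd, Prod.fst_sub, Prod.snd_sub,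
      smul_eq_mul]; ring
  have e2 : K.h2 z (w • (B - A)) = w * ((B.2.2.2 - A.2.2.2) - K.s2 z * (B.2.1 - A.2.1)) := by
    simp only [Coef.h2, Prod.smul_snd, Prod.fst_sub, Prod.snd_sub,
      smul_eq_mul, Prod.smul_fst]; ring
  have e3 : (w • (B - A)).2.1 * (w • (B - A)).2.2.1 =
      w ^ 2 * ((B.2.1 - A.2.1) * (B.2.2.1 - A.2.2.1)) := by
    simp only [Prod.smul_snd, Prod.fst_sub, Prod.snd_sub, smul_eq_mul, Prod.smul_fst]; ring
  have b1 := sub_mul_sq_le (X := B.1 - A.1) (d := B.2.1 - A.2.1) hc.s1_hi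
  have b2 := sub_mul_sq_le (X := B.2.2.2 - A.2.2.2) (d := B.2.1 - A.2.1) hc.s2_hi
  rw [e1, e2, e3, mul_pow, mul_pow]
  calc w ^ 2 * ((B.1 - A.1) - K.s1 z * (B.2.1 - A.2.1)) ^ 2
        + w ^ 2 * ((B.2.2.2 - A.2.2.2) - K.s2 z * (B.2.1 - A.2.1)) ^ 2
      = w ^ 2 * (((B.1 - A.1) - K.s1 z * (B.2.1 - A.2.1)) ^ 2
        + ((B.2.2.2 - A.2.2.2) - K.s2 z * (B.2.1 - A.2.1)) ^ 2) := by ring
    _ ≤ w ^ 2 * (1 / (8 * C ^ 2) * ((B.2.1 - A.2.1) * (B.2.2.1 - A.2.2.1))) := by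
        refine mul_le_mul_of_nonneg_left ?_ (sq_nonneg _)
        linarith
    _ = _ := by ring

namespace SHyp

variable {K : Coef} {G : P4 → P4 →L[ℝ] P4 →L[ℝ] ℝ} {Psi Phi : P4 → P4} {V : Set P4}
  {R0 ρ C : ℝ} {p0 : P4}

/-- upper bound of the exotic time by the null coordinates -/
lemma len_upper (H : SHyp K G Psi Phi V R0 ρ C p0) {a b : P4} (hab : b - a ∈ cone (1 / 4))
    (hin : InV V a b) {l : ℝ} (hl : 0 < l) :
    b.1 - a.1 ≤ C * (l * ((Psi b).2.2.1 - (Psi a).2.2.1) + ((Psi b).2.1 - (Psi a).2.1) / l) := by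
  have hd : ∀ τ ∈ Icc (0:ℝ) 1, HasDerivAt (fun τ : ℝ => Psi (a + τ • (b - a)))
      (fderiv ℝ Psi (a + τ • (b - a)) (b - a)) τ := fun τ hτ => H.hasDerivAt_seg (hin τ hτ)
  have hd2 : ∀ τ ∈ Icc (0:ℝ) 1, HasDerivAt (fun τ : ℝ => (Psi (a + τ • (b - a))).2.1)
      (fderiv ℝ Psi (a + τ • (b - a)) (b - a)).2.1 τ := fun τ hτ => (hd τ hτ).snd.fst
  have hd3 : ∀ τ ∈ Icc (0:ℝ) 1, HasDerivAt (fun τ : ℝ => (Psi (a + τ • (b - a))).2.2.1)
      (fderiv ℝ Psi (a + τ • (b - a)) (b - a)).2.2.1 τ := fun τ hτ => (hd τ hτ).snd.snd.fst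
  have hg : ∀ τ ∈ Icc (0:ℝ) 1, HasDerivAt (fun τ : ℝ => C * (l * (Psi (a + τ • (b - a))).2.2.1
      + (Psi (a + τ • (b - a))).2.1 / l))
      (C * (l * (fderiv ℝ Psi (a + τ • (b - a)) (b - a)).2.2.1
        + (fderiv ℝ Psi (a + τ • (b - a)) (b - a)).2.1 / l)) τ := fun τ hτ =>
    (((hd3 τ hτ).const_mul l).add ((hd2 τ hτ).div_const l)).const_mul C
  have hf : ∀ τ ∈ Icc (0:ℝ) 1, HasDerivAt (fun τ : ℝ => τ * (b.1 - a.1)) (b.1 - a.1) τ := by
    intro τ _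
    simpa using (hasDerivAt_id τ).mul_const (b.1 - a.1)
  have hw0 : 0 ≤ b.1 - a.1 := by
    have := norm_nonneg (b - a).2
    rw [mem_cone] at hab
    have e : (b - a).1 = b.1 - a.1 := rfl
    rw [e] at hab
    linarith
  have := norm_sub_le_of_deriv zero_le_one hf hg (fun τ hτ => by
    have hz := hin τ hτ
    have hfc := H.fc_cone hz hab
    have hN := (H.nearV hz).timelike_of_cone hab
    rw [H.iso.iso _ hz, gF_diag] at hN
    have hc := H.cbd hz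
    have hQ := hc.Q_nonneg (K.h1 (Psi (a + τ • (b - a))) (fderiv ℝ Psi (a + τ • (b - a)) (b - a)))
      (K.h2 (Psi (a + τ • (b - a))) (fderiv ℝ Psi (a + τ • (b - a)) (b - a)))
    set w := fderiv ℝ Psi (a + τ • (b - a)) (b - a) with hw
    obtain ⟨f1, f2, -⟩ := hfc
    have e : (b - a).1 = b.1 - a.1 := rfl
    rw [e] at hN
    have h5 : (b.1 - a.1) ^ 2 ≤ 4 * C * (w.2.1 * w.2.2.1) := by
      have : K.om (Psi (a + τ • (b - a))) * (w.2.1 * w.2.2.1) ≤ C * (w.2.1 * w.2.2.1) :=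
        mul_le_mul_of_nonneg_right hc.om_hi (mul_nonneg f1 f2)
      linarith only [hN, hQ, this]
    have h4 : 4 * (w.2.1 * w.2.2.1) ≤ (l * w.2.2.1 + w.2.1 / l) ^ 2 := by
      have : l * w.2.2.1 * (w.2.1 / l) = w.2.1 * w.2.2.1 := by field_simp
      linarith only [this, sq_nonneg (l * w.2.2.1 - w.2.1 / l)]
    rw [Real.norm_eq_abs]
    have hC0 := hc.C_pos
    apply abs_le_of_sq_le_sq _ (by positivity)
    calc (b.1 - a.1) ^ 2 ≤ 4 * C * (w.2.1 * w.2.2.1) := h5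
      _ = C * (4 * (w.2.1 * w.2.2.1)) := by ring
      _ ≤ C * (l * w.2.2.1 + w.2.1 / l) ^ 2 := by gcongr
      _ ≤ C ^ 2 * (l * w.2.2.1 + w.2.1 / l) ^ 2 := by
          have := (powC hc.one_le).1
          gcongr
      _ = _ := by ring)
  simp only [one_mul, zero_mul, sub_zero, one_smul, zero_smul, add_zero, add_sub_cancel] at this
  rw [Real.norm_eq_abs, abs_of_nonneg hw0] at this
  refine this.trans (le_of_eq ?_)
  ring

/-- lower bound of the exotic time between regularly separated points -/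
lemma len_lower (H : SHyp K G Psi Phi V R0 ρ C p0) {a b : P4} (hab : b - a ∈ cone (1 / 4))
    (hin : InV V a b) (ha : ‖a‖ ≤ R0 / 8) (hb : ‖b‖ ≤ R0 / 8) {η : ℝ} (hη : 5 * C * η < ρ)
    (hη2 : 280 * C ^ 6 * η ≤ 1) (hA : ‖Psi a - p0‖ ≤ η) (hB : ‖Psi b - p0‖ ≤ η)
    (h01 : 0 < (b - a).1)
    (huv : (Psi b).2.1 - (Psi a).2.1 ≤ (Psi b).2.2.1 - (Psi a).2.2.1)
    (hΘ : 2 * (((Psi b).1 - (Psi a).1) ^ 2 + ((Psi b).2.2.2 - (Psi a).2.2.2) ^ 2)
      + 4 * C ^ 2 * ((Psi b).2.1 - (Psi a).2.1) ^ 2 ≤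
      1 / (8 * C ^ 2) * (((Psi b).2.1 - (Psi a).2.1) * ((Psi b).2.2.1 - (Psi a).2.2.1))) :
    ((Psi b).2.1 - (Psi a).2.1) * ((Psi b).2.2.1 - (Psi a).2.2.1) ≤ 2 * C * (b.1 - a.1) ^ 2 := by
  have hC := H.one_le
  have hC0 : 0 < C := by linarith only [hC]
  have haV := hin.left
  have hbV := hin.right
  have hη0 : 0 ≤ η := (norm_nonneg _).trans hA
  set x : ℝ → P4 := fun τ => Psi (a + τ • (b - a)) with hx
  set x' : ℝ → P4 := fun τ => fderiv ℝ Psi (a + τ • (b - a)) (b - a) with hx'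
  set dv := (Psi b).2.1 - (Psi a).2.1 with hdv
  set du := (Psi b).2.2.1 - (Psi a).2.2.1 with hdu
  have hd : ∀ τ ∈ Icc (0:ℝ) 1, HasDerivAt x (x' τ) τ := fun τ hτ => H.hasDerivAt_seg (hin τ hτ)
  have hd2 : ∀ τ ∈ Icc (0:ℝ) 1, HasDerivAt (fun τ => (x τ).2.1) (x' τ).2.1 τ :=
    fun τ hτ => (hd τ hτ).snd.fst
  have hx0 : x 0 = Psi a := by simp [hx]
  have hx1 : x 1 = Psi b := by simp [hx]
  have hGneg : ∀ τ ∈ Icc (0:ℝ) 1, G (a + τ • (b - a)) (b - a) (b - a) < 0 := by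
    intro τ hτ
    have := (H.nearV (hin τ hτ)).timelike_of_cone hab
    have h2 : 0 < (b - a).1 ^ 2 := by positivity
    linarith only [this, h2]
  have hvpos : ∀ τ ∈ Icc (0:ℝ) 1, 0 < (x' τ).2.1 := fun τ hτ =>
    H.v_pos (hin τ hτ) (hGneg τ hτ) h01
  have hgneg : ∀ τ ∈ Icc (0:ℝ) 1, K.gF (x τ) (x' τ) (x' τ) < 0 := by
    intro τ hτ
    rw [← H.iso.iso _ (hin τ hτ)]
    exact hGneg τ hτ
  have hdvpos : 0 < dv := by
    obtain ⟨c, hc, hc2⟩ := exists_hasDerivAt_eq_slope (fun τ => (x τ).2.1) (fun τ => (x' τ).2.1)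
      (zero_lt_one (α := ℝ)) (fun τ hτ => (hd2 τ hτ).continuousAt.continuousWithinAt)
      (fun τ hτ => hd2 τ ⟨hτ.1.le, hτ.2.le⟩)
    have := hvpos c ⟨hc.1.le, hc.2.le⟩
    simp only [hx0, hx1, sub_zero, div_one] at hc2
    rw [hdv, ← hc2]; exact this
  have hdupos : 0 < du := by linarith only [huv, hdvpos]
  set om : ℝ → ℝ := fun τ => ((x τ).2.1 - (Psi a).2.1) / dv with hom
  set om' : ℝ → ℝ := fun τ => (x' τ).2.1 / dv with hom'
  set D : P4 := Psi b - Psi a with hD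
  set y : ℝ → P4 := fun τ => Psi a + om τ • D with hy
  set y' : ℝ → P4 := fun τ => om' τ • D with hy'
  have hD1 : D.2.1 = dv := rfl
  have hD2 : D.2.2.1 = du := rfl
  have homd : ∀ τ ∈ Icc (0:ℝ) 1, HasDerivAt om (om' τ) τ :=
    fun τ hτ => ((hd2 τ hτ).sub_const _).div_const dv
  have hyd : ∀ τ ∈ Icc (0:ℝ) 1, HasDerivAt y (y' τ) τ :=
    fun τ hτ => ((homd τ hτ).smul_const D).const_add (Psi a)
  have hompos : ∀ τ ∈ Icc (0:ℝ) 1, 0 < om' τ := fun τ hτ => div_pos (hvpos τ hτ) hdvpos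
  have hom0 : om 0 = 0 := by simp [hom, hx0]
  have hom1 : om 1 = 1 := by
    simp only [hom, hx1]
    rw [← hdv]; exact div_self hdvpos.ne'
  have hy0 : y 0 = Psi a := by simp [hy, hom0]
  have hy1 : y 1 = Psi b := by simp [hy, hom1, hD]
  -- the compact set
  have hKsub : KB p0 (5 * C * η) (Psi b).2.1 ⊆ MB p0 ρ := KB_sub hη (H.maps b hbV).2
  have hη5 : η ≤ 5 * C * η := le_mul_of_one_le_left (by linarith only [hη0]) (by linarith only [hC])
  have hxK : ∀ τ ∈ Icc (0:ℝ) 1, x τ ∈ KB p0 (5 * C * η) (Psi b).2.1 := by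
    intro τ hτ
    have hbb : InV V b b := fun t _ => by simpa using hbV
    have hc0 : b - b ∈ cone (1 / 4) := by simp only [one_div, sub_self, mem_cone, Prod.snd_zero, norm_zero, Prod.fst_zero, mul_zero, Std.le_refl]
    exact (H.seg_mem_KB hab hc0 hin hbb hA hB le_rfl hτ).1
  have homr : ∀ τ ∈ Icc (0:ℝ) 1, om τ ∈ Icc (0:ℝ) 1 := by
    intro τ hτ
    have r1 := (H.rel_seg hab hin le_rfl hτ.1 hτ.2).1
    have r2 := (H.rel_seg hab hin hτ.1 hτ.2 le_rfl).1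
    simp only [zero_smul, add_zero, one_smul, add_sub_cancel] at r1 r2
    constructor
    · exact div_nonneg (sub_nonneg.2 r1) hdvpos.le
    · rw [hom]; simp only []
      rw [div_le_one hdvpos, hdv]
      have : (x τ).2.1 ≤ (Psi b).2.1 := r2
      linarith only [r2]
  have hyv : ∀ τ, (y τ).2.1 = (x τ).2.1 := by
    intro τ
    have : (y τ).2.1 = (Psi a).2.1 + om τ * dv := rfl
    rw [this, hom]; simp only []
    rw [div_mul_cancel₀ _ hdvpos.ne']; ring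
  have hyK : ∀ τ ∈ Icc (0:ℝ) 1, y τ ∈ KB p0 (5 * C * η) (Psi b).2.1 := by
    intro τ hτ
    constructor
    · have h1 : Psi a ∈ Metric.closedBall p0 (5 * C * η) := by
        simpa only [Metric.mem_closedBall, dist_eq_norm] using hA.trans hη5
      have h2 : Psi b ∈ Metric.closedBall p0 (5 * C * η) := by
        simpa only [Metric.mem_closedBall, dist_eq_norm] using hB.trans hη5
      have h3 := (convex_closedBall p0 (5 * C * η)).add_smul_sub_mem h1 h2 (homr τ hτ)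
      simpa only [ge_iff_le, Metric.mem_closedBall, dist_eq_norm] using h3
    · rw [hyv]; exact (hxK τ hτ).2
  have hh : ∀ z ∈ MB p0 ρ, ∀ τ, K.h1 z (y' τ) ^ 2 + K.h2 z (y' τ) ^ 2 ≤
      1 / (8 * C ^ 2) * ((y' τ).2.1 * (y' τ).2.2.1) :=
    fun z hz τ => hat_small (H.bd z hz) (om' τ) hΘ
  have hxyd : ∀ τ ∈ Icc (0:ℝ) 1, ‖y τ - x τ‖ ≤ 10 * C * η := by
    intro τ hτ
    have h1 := (hxK τ hτ).1
    have h2 := (hyK τ hτ).1
    have : y τ - x τ = (y τ - p0) - (x τ - p0) := by abel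
    rw [this]
    refine (norm_sub_le _ _).trans ?_
    linarith only [h1, h2]
  have hab' : ∀ τ, (x' τ).2.1 = (y' τ).2.1 := by
    intro τ
    have : (y' τ).2.1 = om' τ * dv := rfl
    rw [this, hom']; simp only []
    rw [div_mul_cancel₀ _ hdvpos.ne']
  have hub' : ∀ τ ∈ Icc (0:ℝ) 1, (y' τ).2.1 ≤ (y' τ).2.2.1 := by
    intro τ hτ
    have e1 : (y' τ).2.1 = om' τ * dv := rfl
    have e2 : (y' τ).2.2.1 = om' τ * du := rfl
    rw [e1, e2]
    exact mul_le_mul_of_nonneg_left huv (hompos τ hτ).le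
  have hxl : ∀ l ∈ Icc (0:ℝ) 1, ∀ τ ∈ Icc (0:ℝ) 1,
      x τ + l • (y τ - x τ) ∈ KB p0 (5 * C * η) (Psi b).2.1 :=
    fun l hl τ hτ => KB_convex (hxK τ hτ) (hyK τ hτ) hl
  have hlift := H.lift_hom haV hbV ha hb (x := x) (y := y) (x' := x') (y' := y') hd hyd
    (fun l hl τ hτ => by
      have hm := hKsub (hxl l hl τ hτ)
      refine cvx_neg (K := K) (C := C) (x := x τ) (xl := x τ + l • (y τ - x τ)) (a := x' τ)
        (b := y' τ) (l := l) (d := 10 * C * η) (H.bd _ (hKsub (hxK τ hτ))) (H.bd _ hm)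
        (H.lip _ hm _ (hKsub (hxK τ hτ)) ?_) ?_ hl (by positivity) ?_ (hab' τ) (hvpos τ hτ)
        (hgneg τ hτ) (hub' τ hτ) (hh _ hm τ)
      · have : (x τ + l • (y τ - x τ)).2.1 = (x τ).2.1 + l * ((y τ).2.1 - (x τ).2.1) := rfl
        rw [this, hyv]; ring
      · rw [add_sub_cancel_left, norm_smul, Real.norm_eq_abs, abs_of_nonneg hl.1]
        exact mul_le_mul_of_nonneg_left (hxyd τ hτ) hl.1
      · calc 28 * C ^ 5 * (10 * C * η) = 280 * C ^ 6 * η := by ring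
          _ ≤ 1 := hη2)
    (fun l hl τ hτ => by
      have : (x' τ + l • (y' τ - x' τ)).2.1 = (x' τ).2.1 + l * ((y' τ).2.1 - (x' τ).2.1) := rfl
      rw [this, ← hab']
      have := hvpos τ hτ
      linarith only [this])
    (KB_compact p0 (5 * C * η) (Psi b).2.1) hKsub hxl hx0 hy0 hx1 hy1
    (fun τ hτ => ⟨a + τ • (b - a), hin τ hτ, rfl⟩)
  have hyV : ∀ τ ∈ Icc (0:ℝ) 1, y τ ∈ Psi '' V := by
    intro τ hτ
    have := hlift 1 ⟨zero_le_one, le_rfl⟩ τ hτ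
    simpa only [mem_image, Prod.exists, one_smul, add_sub_cancel] using this
  set c := Real.sqrt (dv * du / (2 * C)) with hc
  have hc2 : c ^ 2 = dv * du / (2 * C) := Real.sq_sqrt (by positivity)
  have hc0 : 0 ≤ c := Real.sqrt_nonneg _
  have hz1 : ∀ τ ∈ Icc (0:ℝ) 1, HasDerivAt (fun τ => (Phi (y τ)).1)
      (fderiv ℝ Phi (y τ) (y' τ)).1 τ :=
    fun τ hτ => (H.lift_deriv (hyd τ hτ) (hyV τ hτ)).1.fst
  have hz2 : ∀ τ ∈ Icc (0:ℝ) 1, HasDerivAt (fun τ => om τ * c) (om' τ * c) τ :=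
    fun τ hτ => (homd τ hτ).mul_const c
  have hfin := norm_sub_le_of_deriv zero_le_one hz2 hz1 (fun τ hτ => by
    have hyM := hKsub (hyK τ hτ)
    have h1 := cmp_neg (H.bd _ hyM) (by rw [← hab']; exact hvpos τ hτ) (hub' τ hτ) (hh _ hyM τ)
    have h2 : K.gF (y τ) (y' τ) (y' τ) < 0 := by
      have e2 : 0 < (y' τ).2.1 := by rw [← hab']; exact hvpos τ hτ
      have e3 : 0 < (y' τ).2.2.1 := by linarith only [e2, hub' τ hτ]
      have : 0 < (y' τ).2.1 * (y' τ).2.2.1 / C := by positivity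
      linarith only [h1, this]
    have h3 := H.lift_vel (hyV τ hτ) h2 (by rw [← hab']; exact hvpos τ hτ)
      (H.lift_deriv (hyd τ hτ) (hyV τ hτ)).2
    rw [Real.norm_eq_abs]
    apply abs_le_of_sq_le_sq _ h3.1.le
    have e3 : (y' τ).2.1 * (y' τ).2.2.1 = om' τ ^ 2 * (dv * du) := by
      have : (y' τ).2.1 = om' τ * dv := rfl
      rw [this]
      have : (y' τ).2.2.1 = om' τ * du := rfl
      rw [this]; ring
    rw [e3] at h1
    rw [mul_pow, hc2]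
    have h4 := h3.2.2
    have e5 : om' τ ^ 2 * (dv * du / (2 * C)) = (om' τ ^ 2 * (dv * du) / C) / 2 := by
      field_simp
    rw [e5]
    linarith only [h1, h3])
  simp only [hom0, hom1, zero_mul, sub_zero, one_mul, hy0, hy1, H.inv a haV, H.inv b hbV] at hfin
  rw [Real.norm_eq_abs, abs_of_nonneg hc0] at hfin
  have h6 : c ^ 2 ≤ (b.1 - a.1) ^ 2 := by gcongr
  rw [hc2, div_le_iff₀ (by positivity)] at h6
  linarith only [h6]

end SHyp

end Vale.Agent.P354
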