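import Vale.Agent.P354.SCvx2

set_option maxSynthPendingDepth 3

open Set Filter Topology

namespace Vale.Agent.P354

/-- causal diamond in exotic coordinates -/
def Dia (a b : P4) : Set P4 := {z | ‖z.2 - a.2‖ ≤ 2 * (z.1 - a.1) ∧ ‖b.2 - z.2‖ ≤ 2 * (b.1 - z.1)}

lemma Dia_closed (a b : P4) : IsClosed (Dia a b) := by
  have : Dia a b = {z : P4 | ‖z.2 - a.2‖ ≤ 2 * (z.1 - a.1)} ∩
      {z : P4 | ‖b.2 - z.2‖ ≤ 2 * (b.1 - z.1)} := rfl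
  rw [this]
  exact (isClosed_le (by fun_prop) (by fun_prop)).inter (isClosed_le (by fun_prop) (by fun_prop))

lemma Dia_sub {a b : P4} {R : ℝ} (hR : 0 < R) (ha : ‖a‖ ≤ R / 8) (hb : ‖b‖ ≤ R / 8) :
    Dia a b ⊆ Metric.closedBall (0 : P4) (7 / 8 * R) := by
  intro z hz
  obtain ⟨h1, h2⟩ := hz
  have a1 : |a.1| ≤ R / 8 := (norm_fst_le a).trans ha
  have a2 : ‖a.2‖ ≤ R / 8 := (norm_snd_le a).trans ha
  have b1 : |b.1| ≤ R / 8 := (norm_fst_le b).trans hb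
  obtain ⟨a1l, a1r⟩ := abs_le.1 a1
  obtain ⟨b1l, b1r⟩ := abs_le.1 b1
  have h3 := norm_nonneg (z.2 - a.2)
  have h4 := norm_nonneg (b.2 - z.2)
  rw [mem_closedBall_zero_iff, norm_P4]
  apply max_le
  · rw [abs_le]; constructor <;> linarith only [hR, h1, a1l, h3, h2, b1r, h4]
  · have : z.2 = (z.2 - a.2) + a.2 := by abel
    rw [this]
    refine (norm_add_le _ _).trans ?_
    linarith only [hR, h1, h2, a2, a1l, b1r, h4]

namespace SHyp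

variable {K : Coef} {G : P4 → P4 →L[ℝ] P4 →L[ℝ] ℝ} {Psi Phi : P4 → P4} {V : Set P4}
  {R0 ρ C : ℝ} {p0 : P4}

lemma Phi_mem (H : SHyp K G Psi Phi V R0 ρ C p0) {x : P4} (hx : x ∈ Psi '' V) :
    Phi x ∈ V ∧ Psi (Phi x) = x := by
  obtain ⟨z, hz, rfl⟩ := hx
  rw [H.inv z hz]
  exact ⟨hz, rfl⟩

lemma Phi_hasFDerivAt (H : SHyp K G Psi Phi V R0 ρ C p0) {x : P4} (hx : x ∈ Psi '' V) :
    HasFDerivAt Phi (fderiv ℝ Phi x) x :=
  ((H.phi.contDiffAt (H.opn.mem_nhds hx)).differentiableAt (by norm_num)).hasFDerivAt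

/-- the lift of a curve -/
lemma lift_deriv (H : SHyp K G Psi Phi V R0 ρ C p0) {ν : ℝ → P4} {ν' : P4} {τ : ℝ}
    (hν : HasDerivAt ν ν' τ) (hx : ν τ ∈ Psi '' V) :
    HasDerivAt (fun τ => Phi (ν τ)) (fderiv ℝ Phi (ν τ) ν') τ ∧
      fderiv ℝ Psi (Phi (ν τ)) (fderiv ℝ Phi (ν τ) ν') = ν' := by
  have h1 : HasDerivAt (fun τ => Phi (ν τ)) (fderiv ℝ Phi (ν τ) ν') τ :=
    (H.Phi_hasFDerivAt hx).comp_hasDerivAt τ hν
  refine ⟨h1, ?_⟩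
  have h2 : HasDerivAt (fun τ => Psi (Phi (ν τ)))
      (fderiv ℝ Psi (Phi (ν τ)) (fderiv ℝ Phi (ν τ) ν')) τ :=
    (H.iso.hasFDerivAt (H.Phi_mem hx).1).comp_hasDerivAt τ h1
  have h3 : (fun τ => Psi (Phi (ν τ))) =ᶠ[𝓝 τ] ν := by
    filter_upwards [hν.continuousAt.eventually (H.opn.mem_nhds hx)] with τ' h
    exact (H.Phi_mem h).2
  exact (h2.congr_of_eventuallyEq h3.symm).unique hν

/-- properties of the lifted velocity -/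
lemma lift_vel (H : SHyp K G Psi Phi V R0 ρ C p0) {x a : P4} (hx : x ∈ Psi '' V)
    (ha : K.gF x a a < 0) (hav : 0 < a.2.1)
    (hd : fderiv ℝ Psi (Phi x) (fderiv ℝ Phi x a) = a) :
    0 < (fderiv ℝ Phi x a).1 ∧ ‖fderiv ℝ Phi x a‖ ≤ 2 * (fderiv ℝ Phi x a).1 ∧
      -K.gF x a a ≤ 2 * (fderiv ℝ Phi x a).1 ^ 2 := by
  obtain ⟨h1, h2⟩ := H.Phi_mem hx
  have h3 : G (Phi x) (fderiv ℝ Phi x a) (fderiv ℝ Phi x a) = K.gF x a a := by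
    rw [H.iso.iso _ h1, h2, hd]
  have h4 : G (Phi x) (fderiv ℝ Phi x a) (fderiv ℝ Phi x a) < 0 := by rw [h3]; exact ha
  have h5 := H.t_pos h1 h4 (by rw [hd]; exact hav)
  have h6 := (H.nearV h1).norm_le_of_causal h4.le
  rw [abs_of_pos h5] at h6
  refine ⟨h5, h6, ?_⟩
  have h7 := (abs_le.1 (H.nearV h1 (fderiv ℝ Phi x a) (fderiv ℝ Phi x a))).1
  rw [mink_self, h3] at h7
  have h8 : ‖fderiv ℝ Phi x a‖ * ‖fderiv ℝ Phi x a‖ ≤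
      (2 * (fderiv ℝ Phi x a).1) * (2 * (fderiv ℝ Phi x a).1) :=
    mul_le_mul h6 h6 (norm_nonneg _) (by linarith only [h5])
  have h9 := sq_nonneg (fderiv ℝ Phi x a).2.1
  have h10 := sq_nonneg (fderiv ℝ Phi x a).2.2.1
  have h11 := sq_nonneg (fderiv ℝ Phi x a).2.2.2
  linarith only [ha, h7, h8, h9, h10, h11]

/-- lifted timelike curves satisfy the cone estimate -/
lemma lift_cone (H : SHyp K G Psi Phi V R0 ρ C p0) {ν ν' : ℝ → P4} {τ1 τ2 : ℝ} (h12 : τ1 ≤ τ2)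
    (hν : ∀ τ ∈ Icc τ1 τ2, HasDerivAt ν (ν' τ) τ) (hx : ∀ τ ∈ Icc τ1 τ2, ν τ ∈ Psi '' V)
    (hT : ∀ τ ∈ Icc τ1 τ2, K.gF (ν τ) (ν' τ) (ν' τ) < 0) (hv : ∀ τ ∈ Icc τ1 τ2, 0 < (ν' τ).2.1) :
    ‖(Phi (ν τ2)).2 - (Phi (ν τ1)).2‖ ≤ 2 * ((Phi (ν τ2)).1 - (Phi (ν τ1)).1) := by
  have h1 : ∀ τ ∈ Icc τ1 τ2, HasDerivAt (fun τ => (Phi (ν τ)).2)
      (fderiv ℝ Phi (ν τ) (ν' τ)).2 τ := fun τ hτ => (H.lift_deriv (hν τ hτ) (hx τ hτ)).1.snd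
  have h20 : ∀ τ ∈ Icc τ1 τ2, HasDerivAt (fun τ => (Phi (ν τ)).1)
      (fderiv ℝ Phi (ν τ) (ν' τ)).1 τ :=
    fun τ hτ => (H.lift_deriv (hν τ hτ) (hx τ hτ)).1.fst
  have h2 : ∀ τ ∈ Icc τ1 τ2, HasDerivAt (fun τ => 2 * (Phi (ν τ)).1)
      (2 * (fderiv ℝ Phi (ν τ) (ν' τ)).1) τ := fun τ hτ => (h20 τ hτ).const_mul 2
  have := norm_sub_le_of_deriv h12 h1 h2 (fun τ hτ => by
    have h3 := H.lift_vel (hx τ hτ) (hT τ hτ) (hv τ hτ) (H.lift_deriv (hν τ hτ) (hx τ hτ)).2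
    exact (norm_snd_le _).trans h3.2.1)
  linarith

/-- Homotopy lifting of timelike curves with fixed ends. -/
lemma lift_hom (H : SHyp K G Psi Phi V R0 ρ C p0) {a b : P4} (haV : a ∈ V) (hbV : b ∈ V)
    (ha : ‖a‖ ≤ R0 / 8) (hb : ‖b‖ ≤ R0 / 8) {x y x' y' : ℝ → P4}
    (hx : ∀ τ ∈ Icc (0:ℝ) 1, HasDerivAt x (x' τ) τ)
    (hy : ∀ τ ∈ Icc (0:ℝ) 1, HasDerivAt y (y' τ) τ)
    (hT : ∀ l ∈ Icc (0:ℝ) 1, ∀ τ ∈ Icc (0:ℝ) 1, K.gF (x τ + l • (y τ - x τ))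
      (x' τ + l • (y' τ - x' τ)) (x' τ + l • (y' τ - x' τ)) < 0)
    (hv : ∀ l ∈ Icc (0:ℝ) 1, ∀ τ ∈ Icc (0:ℝ) 1, 0 < (x' τ + l • (y' τ - x' τ)).2.1)
    {Kc : Set P4} (hKc : IsCompact Kc) (hKM : Kc ⊆ MB p0 ρ)
    (hK : ∀ l ∈ Icc (0:ℝ) 1, ∀ τ ∈ Icc (0:ℝ) 1, x τ + l • (y τ - x τ) ∈ Kc)
    (hx0 : x 0 = Psi a) (hy0 : y 0 = Psi a) (hx1 : x 1 = Psi b) (hy1 : y 1 = Psi b)
    (hstart : ∀ τ ∈ Icc (0:ℝ) 1, x τ ∈ Psi '' V) :
    ∀ l ∈ Icc (0:ℝ) 1, ∀ τ ∈ Icc (0:ℝ) 1, x τ + l • (y τ - x τ) ∈ Psi '' V := by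
  obtain ⟨F, hF, hVF⟩ := H.cl Kc hKc hKM
  set Q : Set P4 := Psi '' (V ∩ Psi ⁻¹' Kc ∩ Dia a b) with hQ
  have hDball : Dia a b ⊆ Metric.ball (0 : P4) R0 := by
    refine (Dia_sub H.R0_pos ha hb).trans (Metric.closedBall_subset_ball ?_)
    linarith only [H.R0_pos]
  have hcomp : IsCompact (V ∩ Psi ⁻¹' Kc ∩ Dia a b) := by
    have h1 : V ∩ Psi ⁻¹' Kc ∩ Dia a b = F ∩ Dia a b := by
      rw [hVF]
      ext z
      constructor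
      · rintro ⟨⟨_, h⟩, h'⟩; exact ⟨h, h'⟩
      · rintro ⟨h, h'⟩; exact ⟨⟨hDball h', h⟩, h'⟩
    rw [h1]
    exact (isCompact_closedBall (0 : P4) (7 / 8 * R0)).of_isClosed_subset
      (hF.inter (Dia_closed a b)) (fun z hz => Dia_sub H.R0_pos ha hb hz.2)
  have hQc : IsCompact Q :=
    hcomp.image_of_continuousOn (H.iso.smooth.continuousOn.mono fun z hz => hz.1.1)
  set S : Set ℝ := {l | ∀ τ ∈ Icc (0:ℝ) 1, x τ + l • (y τ - x τ) ∈ Psi '' V} with hS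
  have hderiv : ∀ l : ℝ, ∀ τ ∈ Icc (0:ℝ) 1, HasDerivAt (fun τ => x τ + l • (y τ - x τ))
      (x' τ + l • (y' τ - x' τ)) τ := fun l τ hτ =>
    (hx τ hτ).fun_add (((hy τ hτ).fun_sub (hx τ hτ)).fun_const_smul l)
  have hset : S ∩ Icc 0 1 = Icc (0:ℝ) 1 ∩ ⋂ τ ∈ Icc (0:ℝ) 1,
      (fun l : ℝ => x τ + l • (y τ - x τ)) ⁻¹' Q := by
    ext l
    simp only [mem_inter_iff, mem_iInter, mem_preimage]
    constructor
    · rintro ⟨h, hl⟩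
      refine ⟨hl, fun τ hτ => ?_⟩
      have hm := H.Phi_mem (h τ hτ)
      refine ⟨Phi (x τ + l • (y τ - x τ)), ⟨⟨hm.1, ?_⟩, ?_, ?_⟩, hm.2⟩
      · rw [mem_preimage, hm.2]; exact hK l hl τ hτ
      · have := H.lift_cone (ν := fun τ => x τ + l • (y τ - x τ))
          (ν' := fun τ => x' τ + l • (y' τ - x' τ)) hτ.1
          (fun t ht => hderiv l t ⟨ht.1, ht.2.trans hτ.2⟩)
          (fun t ht => h t ⟨ht.1, ht.2.trans hτ.2⟩)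
          (fun t ht => hT l hl t ⟨ht.1, ht.2.trans hτ.2⟩)
          (fun t ht => hv l hl t ⟨ht.1, ht.2.trans hτ.2⟩)
        simpa only [hx0, hy0, sub_self, smul_zero, add_zero, H.inv a haV] using this
      · have := H.lift_cone (ν := fun τ => x τ + l • (y τ - x τ))
          (ν' := fun τ => x' τ + l • (y' τ - x' τ)) hτ.2
          (fun t ht => hderiv l t ⟨hτ.1.trans ht.1, ht.2⟩)
          (fun t ht => h t ⟨hτ.1.trans ht.1, ht.2⟩)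
          (fun t ht => hT l hl t ⟨hτ.1.trans ht.1, ht.2⟩)
          (fun t ht => hv l hl t ⟨hτ.1.trans ht.1, ht.2⟩)
        simpa only [hx1, hy1, sub_self, smul_zero, add_zero, H.inv b hbV] using this
    · rintro ⟨hl, h⟩
      refine ⟨fun τ hτ => ?_, hl⟩
      obtain ⟨z, hz, hz2⟩ := h τ hτ
      exact ⟨z, hz.1.1, hz2⟩
  have hclosed : IsClosed (S ∩ Icc 0 1) := by
    rw [hset]
    refine isClosed_Icc.inter (isClosed_biInter fun τ _ => ?_)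
    exact hQc.isClosed.preimage (by fun_prop)
  have key : Icc (0:ℝ) 1 ⊆ S := by
    refine hclosed.Icc_subset_of_forall_mem_nhdsWithin ?_ ?_
    · intro τ hτ
      simpa only [zero_smul, add_zero, mem_image, Prod.exists] using hstart τ hτ
    · rintro l ⟨h1, hl⟩
      refine mem_nhdsWithin_of_mem_nhds ?_
      have := isCompact_Icc.eventually_forall_of_forall_eventually (x₀ := l)
        (K := Icc (0:ℝ) 1) (P := fun l τ => x τ + l • (y τ - x τ) ∈ Psi '' V) (by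
          intro τ hτ
          have hc : ContinuousAt (fun p : ℝ × ℝ => x p.2 + p.1 • (y p.2 - x p.2)) (l, τ) := by
            have c1 : ContinuousAt (fun p : ℝ × ℝ => x p.2) (l, τ) :=
              ContinuousAt.comp (g := x) (f := Prod.snd) (hx τ hτ).continuousAt continuousAt_snd
            have c2 : ContinuousAt (fun p : ℝ × ℝ => y p.2) (l, τ) :=
              ContinuousAt.comp (g := y) (f := Prod.snd) (hy τ hτ).continuousAt continuousAt_snd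
            exact c1.add (continuousAt_fst.smul (c2.sub c1))
          exact hc.eventually (H.opn.mem_nhds (h1 τ hτ)))
      exact this
  exact fun l hl => key hl

end SHyp

end Vale.Agent.P354
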