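import Vale.Agent.P354.SExit

set_option maxSynthPendingDepth 3

open Set Filter Topology

namespace Vale.Agent.P354

lemma vline_norm (t : ℝ) (x : ℝ × ℝ × ℝ) : ‖((t, x) : P4)‖ = max |t| ‖x‖ := rfl

namespace SHyp

variable {K : Coef} {G : P4 → P4 →L[ℝ] P4 →L[ℝ] ℝ} {Psi Phi : P4 → P4} {V : Set P4}
  {R0 ρ C : ℝ} {p0 : P4} {γ : ℝ → P4} {s0 η1 η : ℝ}

/-- the initial slice -/
lemma slice_cone (hc : SCurve Psi V p0 γ s0 η1) {s1 : ℝ} (hs1 : s1 ∈ Ico s0 1)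
    {x : ℝ × ℝ × ℝ} (hx : ‖x‖ < -(γ s1).1 / 16) :
    (((γ s1).1 / 4, x) : P4) - γ s1 ∈ cone (1 / 4) ∧ 4 * ‖x‖ < -((γ s1).1 / 4) := by
  have hneg := hc.neg s1 hs1
  have hnc := neg_cone hc hs1
  rw [mem_cone] at hnc
  have hn1 : (-γ s1).2 = -(γ s1).2 := rfl
  have hn2 : (-γ s1).1 = -(γ s1).1 := rfl
  rw [hn1, hn2, norm_neg] at hnc
  constructor
  · rw [mem_cone]
    have e1 : ((((γ s1).1 / 4, x) : P4) - γ s1).2 = x - (γ s1).2 := rfl
    have e2 : ((((γ s1).1 / 4, x) : P4) - γ s1).1 = (γ s1).1 / 4 - (γ s1).1 := rfl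
    rw [e1, e2]
    refine (norm_sub_le _ _).trans ?_
    linarith only [hx, hnc]
  · linarith only [hx]

lemma line_reach (H : SHyp K G Psi Phi V R0 ρ C p0) (hc : SCurve Psi V p0 γ s0 η1)
    (hη : 5 * C * η1 < ρ) {s1 : ℝ} (hs1 : s1 ∈ Ico s0 1) {x : ℝ × ℝ × ℝ}
    (hx : ‖x‖ < -(γ s1).1 / 16) {t : ℝ} (ht : (γ s1).1 / 4 ≤ t)
    (hV : ∀ t' ∈ Icc ((γ s1).1 / 4) t, ((t', x) : P4) ∈ V) : Reach V (γ s1) (t, x) := by
  obtain ⟨h1, h2⟩ := slice_cone hc hs1 hx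
  exact ⟨((γ s1).1 / 4, x), h1, vline_cone ht x, (H.past hc hη hs1 h1 h2).1, vline_inV ht hV⟩

/-- Points of vertical lines beyond the exit value of `u` are close to the exit point. -/
lemma line_bound (H : SHyp K G Psi Phi V R0 ρ C p0) (hc : SCurve Psi V p0 γ s0 η1)
    (hη : 5 * C * (5 * C * η1) < ρ) {s1 : ℝ} (hs1 : s1 ∈ Ico s0 1) {x : ℝ × ℝ × ℝ}
    (hx : ‖x‖ < -(γ s1).1 / 16) {t : ℝ} (ht : (γ s1).1 / 4 ≤ t)
    (hV : ∀ t' ∈ Icc ((γ s1).1 / 4) t, ((t', x) : P4) ∈ V)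
    (hu : (Psi (t, x)).2.2.1 ≤ p0.2.2.1 + η1) :
    t < 4 * ‖x‖ ∧ ‖Psi (t, x) - p0‖ ≤ 5 * C * η1 ∧
      (p0.2.2.1 < (Psi (t, x)).2.2.1 → -(4 * ‖x‖) ≤ t) := by
  have hC := H.one_le
  have hη10 : 0 ≤ η1 := η_pos hc
  have hη1le : η1 ≤ 5 * C * η1 := le_mul_of_one_le_left (by linarith only [hη10]) (by linarith only [hC])
  have hη' : 5 * C * η1 < ρ := by
    have : 5 * C * η1 ≤ 5 * C * (5 * C * η1) := by gcongr
    linarith only [hη, this]
  have hr := H.line_reach hc hη' hs1 hx ht hV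
  have hg := H.reach_good hc hs1 hr hu
  refine ⟨H.not_future hc hη hη1le hs1 hr hg, hg, fun hgt => ?_⟩
  by_contra hcon
  push Not at hcon
  have h1 : ((t, x) : P4) - γ s1 ∈ cone (1 / 4) := by
    have : ((t, x) : P4) - γ s1 = ((t, x) - ((γ s1).1 / 4, x)) + (((γ s1).1 / 4, x) - γ s1) := by
      abel
    rw [this]
    exact cone_add (vline_cone ht x) (slice_cone hc hs1 hx).1
  have h2 : 4 * ‖((t, x) : P4).2‖ < -((t, x) : P4).1 := by
    simp only; linarith only [hcon]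
  have := H.past_u hc hη' hs1 h1 h2
  linarith only [hgt, this]

/-- Vertical lines near the exit point do not leave through a regular boundary value of `u`. -/
lemma no_u_exit (H : SHyp K G Psi Phi V R0 ρ C p0) (hc : SCurve Psi V p0 γ s0 η1)
    (hη1 : 0 < η1) (hη : 5 * C * (5 * C * η1) < ρ) (hη2 : 280 * C ^ 6 * (5 * C * η1) ≤ 1)
    {s1 : ℝ} (hs1 : s1 ∈ Ico s0 1) :
    ∃ r > 0, r ≤ -(γ s1).1 / 16 ∧ 4 * r ≤ R0 / 8 ∧ ∀ x : ℝ × ℝ × ℝ, ‖x‖ < r →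
      ∀ t, (γ s1).1 / 4 ≤ t → (∀ t' ∈ Icc ((γ s1).1 / 4) t, ((t', x) : P4) ∈ V) →
        (Psi (t, x)).2.2.1 < p0.2.2.1 + η1 := by
  have hC := H.one_le
  have hC0 : 0 < C := by linarith only [hC]
  have hη1le : η1 ≤ 5 * C * η1 := le_mul_of_one_le_left (by linarith) (by linarith)
  have hη' : 5 * C * η1 < ρ := by
    have : 5 * C * η1 ≤ 5 * C * (5 * C * η1) := by gcongr
    linarith
  set k : ℝ := 50 * C ^ 2 with hk
  have hkp : 0 < k := by rw [hk]; positivity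
  have hk1 : 1 ≤ k ^ 2 := by
    have h1 : 1 ≤ k := by
      rw [hk]
      have : 1 ≤ C ^ 2 := one_le_pow₀ hC
      linarith only [this]
    exact one_le_pow₀ h1
  have hdelpos : 0 < η1 / k ^ 2 := by positivity
  have hdel : η1 / k ^ 2 ≤ η1 := div_le_self hη1.le hk1
  -- choose s
  have ex : ∃ s ∈ Ico s1 1, ‖γ s‖ ≤ R0 / 8 ∧ p0.2.2.1 - (Psi (γ s)).2.2.1 ≤ η1 / k ^ 2 ∧
      -(Psi (γ s)).2.1 ≤ η1 / k ^ 2 := by
    have htend : Tendsto γ (𝓝[<] 1) (𝓝 0) := by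
      have := hc.cont.tendsto 1
      rw [hc.one] at this
      exact this.mono_left nhdsWithin_le_nhds
    have e1 : ∀ᶠ s in 𝓝[<] (1:ℝ), γ s ∈ Metric.ball (0 : P4) (R0 / 8) :=
      htend.eventually (Metric.ball_mem_nhds _ (by linarith only [H.R0_pos]))
    have e2 : ∀ᶠ s in 𝓝[<] (1:ℝ), Psi (γ s) ∈ Metric.ball p0 (η1 / k ^ 2) :=
      hc.tend.eventually (Metric.ball_mem_nhds _ hdelpos)
    obtain ⟨s, ⟨h1, h2⟩, h3⟩ := ((e1.and e2).and (Ico_mem_nhdsLT hs1.2)).exists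
    rw [mem_ball_zero_iff] at h1
    rw [mem_ball_iff_norm] at h2
    obtain ⟨-, x2, x3, -⟩ := norm_P4_le.1 h2.le
    simp only [Prod.fst_sub, Prod.snd_sub, H.p0v, sub_zero] at x2 x3
    exact ⟨s, h3, h1.le, by linarith only [(abs_le.1 x3).1], by linarith only [(abs_le.1 x2).1]⟩
  obtain ⟨s, hs, hsR, hμ, hτ⟩ := ex
  have hsI : s ∈ Ico s0 1 := ⟨hs1.1.trans hs.1, hs.2⟩
  have hτpos : 0 < -(Psi (γ s)).2.1 := by
    have := (H.maps _ (hc.mem s hsI)).2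
    linarith only [this]
  set w : ℝ := Real.sqrt (-(Psi (γ s)).2.1 * η1) with hw
  have hwpos : 0 < w := Real.sqrt_pos.2 (by positivity)
  have hw2 : w ^ 2 = -(Psi (γ s)).2.1 * η1 := Real.sq_sqrt (by positivity)
  set a : ℝ := 1 + 1 / (w / (2 * k * η1)) with ha
  have hapos : 0 < a := by positivity
  set v1 : ℝ := min (-(Psi (γ s)).2.1 / 2) (w / (2 * k) / a) with hv1
  have hv1pos : 0 < v1 := lt_min (by linarith only [hτpos]) (by positivity)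
  have hv1a : v1 * a ≤ w / (2 * k) := by
    have : v1 ≤ w / (2 * k) / a := min_le_right _ _
    rwa [le_div_iff₀ hapos] at this
  obtain ⟨ε, hε, hsmall⟩ := H.small_v hc hη' (vs := -v1) (by linarith only [hv1pos])
  have hns1 := hc.neg s1 hs1
  have hns := hc.neg s hsI
  set r : ℝ := min (min (-(γ s).1 / 16) (-(γ s1).1 / 16)) (min (R0 / 32) (ε / 8)) with hr
  have hr1 : r ≤ -(γ s).1 / 16 := (min_le_left _ _).trans (min_le_left _ _)
  have hr2 : r ≤ -(γ s1).1 / 16 := (min_le_left _ _).trans (min_le_right _ _)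
  have hr3 : r ≤ R0 / 32 := (min_le_right _ _).trans (min_le_left _ _)
  have hr4 : r ≤ ε / 8 := (min_le_right _ _).trans (min_le_right _ _)
  have hrpos : 0 < r := lt_min (lt_min (by linarith only [hns]) (by linarith only [hns1]))
    (lt_min (by linarith only [H.R0_pos]) (by linarith only [hε]))
  refine ⟨r, hrpos, hr2, by linarith only [hr3], fun x hx t ht hV => ?_⟩
  by_contra hcon
  push Not at hcon
  have hx1 : ‖x‖ < -(γ s1).1 / 16 := hx.trans_le hr2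
  obtain ⟨hsl1, hsl2⟩ := slice_cone hc hs1 hx1
  have hu0 := H.past_u hc hη' hs1 hsl1 hsl2
  have hcont : ContinuousOn (fun t' => (Psi ((t', x) : P4)).2.2.1) (Icc ((γ s1).1 / 4) t) := by
    have h1 : ContinuousOn (fun t' => Psi ((t', x) : P4)) (Icc ((γ s1).1 / 4) t) :=
      H.iso.smooth.continuousOn.comp (by fun_prop) (fun t' ht' => hV t' ht')
    exact (continuous_fst.comp (continuous_snd.comp continuous_snd)).comp_continuousOn h1
  obtain ⟨t2, ht2, hu2⟩ := intermediate_value_Icc ht hcont (show p0.2.2.1 + η1 ∈ _ from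
    ⟨by linarith only [hη1, hu0], hcon⟩)
  simp only at hu2
  obtain ⟨t1, ht1, hu1⟩ := intermediate_value_Icc ht2.1
    (hcont.mono (Icc_subset_Icc_right ht2.2)) (show p0.2.2.1 + η1 / k ^ 2 ∈ _ from
    ⟨by linarith only [hdelpos, hu0], by simp only [hu2]; linarith only [hdel]⟩)
  simp only at hu1
  have hV2 : ∀ t' ∈ Icc ((γ s1).1 / 4) t2, ((t', x) : P4) ∈ V :=
    fun t' ht' => hV t' ⟨ht'.1, ht'.2.trans ht2.2⟩
  have hV1 : ∀ t' ∈ Icc ((γ s1).1 / 4) t1, ((t', x) : P4) ∈ V :=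
    fun t' ht' => hV2 t' ⟨ht'.1, ht'.2.trans ht1.2⟩
  have B2 := H.line_bound hc hη hs1 hx1 ht2.1 hV2 (by rw [hu2])
  have B1 := H.line_bound hc hη hs1 hx1 ht1.1 hV1 (by rw [hu1]; linarith only [hdel])
  have C2 := B2.2.2 (by rw [hu2]; linarith only [hη1])
  have C1 := B1.2.2 (by rw [hu1]; linarith only [hdelpos])
  have hreach1 := H.line_reach hc hη' hs1 hx1 ht1.1 hV1
  have hreach2 := H.line_reach hc hη' hs1 hx1 ht2.1 hV2
  have hb4 : |t1| ≤ 4 * r := by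
    rw [abs_le]; constructor <;> linarith only [hx, C1, B1.1]
  have hq4 : |t2| ≤ 4 * r := by
    rw [abs_le]; constructor <;> linarith only [hx, C2, B2.1]
  have hbn : ‖((t1, x) : P4)‖ < ε := by
    rw [vline_norm]
    apply max_lt
    · linarith only [hr4, hx, B2, C2, hb4]
    · linarith only [hr4, hx, B2, C2]
  have hbv := hsmall (t1, x) (hV1 t1 ⟨ht1.1, le_rfl⟩) hbn B1.2.1
  exact H.exit_core hc hη1 hη hη2 hk hs1 hs hsR hμ hτ hwpos hw2 (r' := r) (v1 := v1) hr1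
    (by linarith only [hr3]) hv1a (min_le_left _ _) hreach1 hreach2 hu1 hu2
    (vline_inV ht1.2 (fun t' ht' => hV2 t' ⟨ht1.1.trans ht'.1, ht'.2⟩)) (vline_cone ht1.2 x)
    hx.le hx.le (abs_le.1 hb4).1 hq4 hbv.le

end SHyp

end Vale.Agent.P354
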