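import Vale.Agent.P354.SBase

set_option maxSynthPendingDepth 3

open Set Filter Topology

namespace Vale.Agent.P354

lemma norm_P4_le {x : P4} {r : ℝ} :
    ‖x‖ ≤ r ↔ |x.1| ≤ r ∧ |x.2.1| ≤ r ∧ |x.2.2.1| ≤ r ∧ |x.2.2.2| ≤ r := by
  rw [norm_prod_le_iff, norm_prod_le_iff, norm_prod_le_iff]
  simp only [Real.norm_eq_abs]

/-- compact subset of the standard box -/
def KB (p0 : P4) (r vs : ℝ) : Set P4 := {x | ‖x - p0‖ ≤ r ∧ x.2.1 ≤ vs}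

lemma KB_compact (p0 : P4) (r vs : ℝ) : IsCompact (KB p0 r vs) := by
  have h1 : KB p0 r vs = Metric.closedBall p0 r ∩ {x : P4 | x.2.1 ≤ vs} := by
    ext x
    simp only [KB, mem_ofPred_eq, mem_inter_iff, Metric.mem_closedBall, dist_eq_norm]
  rw [h1]
  refine (isCompact_closedBall p0 r).inter_right ?_
  exact isClosed_le (by fun_prop) continuous_const

lemma KB_sub {p0 : P4} {r vs ρ : ℝ} (h1 : r < ρ) (h2 : vs < 0) : KB p0 r vs ⊆ MB p0 ρ :=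
  fun _ hx => ⟨hx.1.trans_lt h1, hx.2.trans_lt h2⟩

lemma confine {C η : ℝ} {p0 x y z : P4} (hC : 1 ≤ C) (hp : p0.2.1 = 0) (hxy : Rel C x y)
    (hyz : Rel C y z) (hx : ‖x - p0‖ ≤ η) (hz : ‖z - p0‖ ≤ η) (hzv : z.2.1 < 0) :
    ‖y - p0‖ ≤ 5 * C * η ∧ y.2.1 ≤ z.2.1 := by
  obtain ⟨x1, x2, x3, x4⟩ := norm_P4_le.1 hx
  obtain ⟨z1, z2, z3, z4⟩ := norm_P4_le.1 hz
  simp only [Prod.fst_sub, Prod.snd_sub, hp, sub_zero] at x1 x2 x3 x4 z1 z2 z3 z4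
  have hη : 0 ≤ η := (norm_nonneg _).trans hx
  have a1 := hxy.1
  have a2 := hxy.2.1
  have b1 := hyz.1
  have b2 := hyz.2.1
  obtain ⟨c1, c2⟩ := hxy.2.2 1 one_pos
  have hCη : η ≤ C * η := le_mul_of_one_le_left (by linarith only [hη]) (by linarith only [hC])
  have hV : y.2.1 - x.2.1 ≤ η := by linarith only [hzv, b1, (abs_le.1 x2).1]
  have hU : y.2.2.1 - x.2.2.1 ≤ 2 * η := by linarith only [b2, (abs_le.1 x3).1, (abs_le.1 z3).2]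
  have hS : C * (y.2.1 - x.2.1 + 1 * (y.2.2.1 - x.2.2.1) + (y.2.1 - x.2.1) / 1) ≤ C * (4 * η) := by
    gcongr
    rw [div_one]; linarith only [hV, hU]
  refine ⟨norm_P4_le.2 ⟨?_, ?_, ?_, ?_⟩, b1⟩
  · simp only [Prod.fst_sub]
    have : y.1 - p0.1 = (y.1 - x.1) + (x.1 - p0.1) := by ring
    rw [this]
    refine (abs_add_le _ _).trans ?_
    linarith only [x1, c1, hCη, hS]
  · simp only [Prod.fst_sub, Prod.snd_sub, hp, sub_zero]
    rw [abs_le]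
    constructor <;> linarith only [hzv, a1, b1, hCη, (abs_le.1 x2).1, hη]
  · simp only [Prod.fst_sub, Prod.snd_sub]
    rw [abs_le]
    constructor <;> linarith only [hη, a2, hCη, (abs_le.1 x3).1, b2, (abs_le.1 z3).2]
  · simp only [Prod.snd_sub]
    have : y.2.2.2 - p0.2.2.2 = (y.2.2.2 - x.2.2.2) + (x.2.2.2 - p0.2.2.2) := by ring
    rw [this]
    refine (abs_add_le _ _).trans ?_
    linarith only [x4, c2, hCη, hS]

lemma tube {V : Set P4} (hV : IsOpen V) {a b : ℝ → P4} (ha : Continuous a) (hb : Continuous b)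
    {l : ℝ} (h : InV V (a l) (b l)) : ∀ᶠ l' in 𝓝 l, InV V (a l') (b l') := by
  have hc : Continuous (fun p : ℝ × ℝ => a p.1 + p.2 • (b p.1 - a p.1)) := by fun_prop
  refine isCompact_Icc.eventually_forall_of_forall_eventually
    (P := fun l' τ => a l' + τ • (b l' - a l') ∈ V) ?_
  intro τ hτ
  exact hc.continuousAt.eventually (hV.mem_nhds (h τ hτ))

lemma ball_seg {R : ℝ} {a b : P4} (ha : a ∈ Metric.ball (0 : P4) R)
    (hb : b ∈ Metric.ball (0 : P4) R) {τ : ℝ} (hτ : τ ∈ Icc (0:ℝ) 1) :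
    a + τ • (b - a) ∈ Metric.ball (0 : P4) R :=
  (convex_ball (0 : P4) R).add_smul_sub_mem ha hb hτ

namespace SHyp

variable {K : Coef} {G : P4 → P4 →L[ℝ] P4 →L[ℝ] ℝ} {Psi Phi : P4 → P4} {V : Set P4}
  {R0 ρ C : ℝ} {p0 : P4}

/-- points of broken future segments between good points stay in a compact set -/
lemma seg_mem_KB (H : SHyp K G Psi Phi V R0 ρ C p0) {η vs : ℝ} {a m b : P4}
    (ham : m - a ∈ cone (1 / 4)) (hmb : b - m ∈ cone (1 / 4))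
    (hin1 : InV V a m) (hin2 : InV V m b) (ha : ‖Psi a - p0‖ ≤ η) (hb : ‖Psi b - p0‖ ≤ η)
    (hbv : (Psi b).2.1 ≤ vs) {τ : ℝ} (hτ : τ ∈ Icc (0:ℝ) 1) :
    Psi (a + τ • (m - a)) ∈ KB p0 (5 * C * η) vs ∧
    Psi (m + τ • (b - m)) ∈ KB p0 (5 * C * η) vs := by
  have hbneg : (Psi b).2.1 < 0 := (H.maps b hin2.right).2
  constructor
  · have r1 := H.rel_seg ham hin1 le_rfl hτ.1 hτ.2
    have r2 := H.rel_seg ham hin1 hτ.1 hτ.2 le_rfl
    have r3 := H.rel_ends hmb hin2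
    simp only [zero_smul, add_zero, one_smul, add_sub_cancel] at r1 r2
    have := confine H.one_le H.p0v r1 (r2.trans r3) ha hb hbneg
    exact ⟨this.1, this.2.trans hbv⟩
  · have r1 := H.rel_seg hmb hin2 le_rfl hτ.1 hτ.2
    have r2 := H.rel_seg hmb hin2 hτ.1 hτ.2 le_rfl
    have r3 := H.rel_ends ham hin1
    simp only [zero_smul, add_zero, one_smul, add_sub_cancel] at r1 r2
    have := confine H.one_le H.p0v (r3.trans r1) r2 ha hb hbneg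
    exact ⟨this.1, this.2.trans hbv⟩

lemma push (H : SHyp K G Psi Phi V R0 ρ C p0) {η vs : ℝ} (hη : 5 * C * η < ρ) (hvs : vs < 0)
    {a m b : ℝ → P4} (ha : Continuous a) (hm : Continuous m) (hb : Continuous b)
    (ham : ∀ l ∈ Icc (0:ℝ) 1, m l - a l ∈ cone (1 / 4))
    (hmb : ∀ l ∈ Icc (0:ℝ) 1, b l - m l ∈ cone (1 / 4))
    (hmR : ∀ l ∈ Icc (0:ℝ) 1, m l ∈ Metric.ball (0 : P4) R0)
    (haV : ∀ l ∈ Icc (0:ℝ) 1, a l ∈ V ∧ ‖Psi (a l) - p0‖ ≤ η)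
    (hbV : ∀ l ∈ Icc (0:ℝ) 1, b l ∈ V ∧ ‖Psi (b l) - p0‖ ≤ η ∧ (Psi (b l)).2.1 ≤ vs)
    (h0 : InV V (a 0) (m 0) ∧ InV V (m 0) (b 0)) :
    ∀ l ∈ Icc (0:ℝ) 1, InV V (a l) (m l) ∧ InV V (m l) (b l) := by
  obtain ⟨F, hF, hVF⟩ := H.cl _ (KB_compact p0 (5 * C * η) vs) (KB_sub hη hvs)
  set S : Set ℝ := {l | InV V (a l) (m l) ∧ InV V (m l) (b l)} with hS
  have hset : S ∩ Icc 0 1 = {l | l ∈ Icc (0:ℝ) 1 ∧ ∀ τ ∈ Icc (0:ℝ) 1,
      a l + τ • (m l - a l) ∈ F ∧ m l + τ • (b l - m l) ∈ F} := by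
    ext l
    constructor
    · rintro ⟨⟨h1, h2⟩, hl⟩
      refine ⟨hl, fun τ hτ => ?_⟩
      have h3 := H.seg_mem_KB (ham l hl) (hmb l hl) h1 h2 (haV l hl).2 (hbV l hl).2.1
        (hbV l hl).2.2 hτ
      have h4 : a l + τ • (m l - a l) ∈ V ∩ Psi ⁻¹' KB p0 (5 * C * η) vs := ⟨h1 τ hτ, h3.1⟩
      have h5 : m l + τ • (b l - m l) ∈ V ∩ Psi ⁻¹' KB p0 (5 * C * η) vs := ⟨h2 τ hτ, h3.2⟩
      rw [hVF] at h4 h5
      exact ⟨h4.2, h5.2⟩
    · rintro ⟨hl, h⟩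
      refine ⟨⟨fun τ hτ => ?_, fun τ hτ => ?_⟩, hl⟩
      · have h4 : a l + τ • (m l - a l) ∈ Metric.ball (0 : P4) R0 ∩ F :=
          ⟨ball_seg (H.V_sub (haV l hl).1) (hmR l hl) hτ, (h τ hτ).1⟩
        rw [← hVF] at h4
        exact h4.1
      · have h4 : m l + τ • (b l - m l) ∈ Metric.ball (0 : P4) R0 ∩ F :=
          ⟨ball_seg (hmR l hl) (H.V_sub (hbV l hl).1) hτ, (h τ hτ).2⟩
        rw [← hVF] at h4
        exact h4.1
  have hclosed : IsClosed (S ∩ Icc 0 1) := by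
    rw [hset]
    have : {l : ℝ | l ∈ Icc (0:ℝ) 1 ∧ ∀ τ ∈ Icc (0:ℝ) 1,
        a l + τ • (m l - a l) ∈ F ∧ m l + τ • (b l - m l) ∈ F} =
        Icc (0:ℝ) 1 ∩ ⋂ τ ∈ Icc (0:ℝ) 1, ((fun l => a l + τ • (m l - a l)) ⁻¹' F ∩
          (fun l => m l + τ • (b l - m l)) ⁻¹' F) := by
      ext l; simp only [mem_Icc, and_imp, mem_ofPred_eq, mem_inter_iff, mem_iInter, mem_preimage]
    rw [this]
    refine isClosed_Icc.inter (isClosed_biInter fun τ _ => ?_)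
    exact (hF.preimage (by fun_prop)).inter (hF.preimage (by fun_prop))
  have key : Icc (0:ℝ) 1 ⊆ S := by
    refine hclosed.Icc_subset_of_forall_mem_nhdsWithin h0 ?_
    rintro l ⟨⟨h1, h2⟩, hl⟩
    refine mem_nhdsWithin_of_mem_nhds ?_
    filter_upwards [tube H.iso.isOpen ha hm h1, tube H.iso.isOpen hm hb h2] with l' k1 k2
    exact ⟨k1, k2⟩
  exact fun l hl => key hl

end SHyp

end Vale.Agent.P354
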